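import Vale.Agent.P193.W4.Common.Facts.Shape

/-!
P193, module W4.A (common layer): the pieces of desubstitution.

A valid tiling is aligned with one grid of parents (positions, counters, rows in use); the shown
bits are then those of a family of parent bits, read at the crossings in the slice of middle digits
`1`; the other fields are recursions on these. The corner of a parent is a finite patch from which
the window of the parents is read.
-/

noncomputable section

namespace Vale.Agent.P193.W4.Common

variable {C : Cfg} {L : ℕ}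

/-! ### Neighbours in a valid tiling -/

lemma quadAt_self (c : Z5 → St C) (P : Z5) : quadAt c P self = c P := by
  show c (P - dir self) = c P
  congr 1
  funext b
  simp [dir, self]

lemma quadAt_back (c : Z5 → St C) (P : Z5) (a : Fin 5) :
    quadAt c P (back self a) = c (P - Pi.single a 1) := by
  show c (P - dir (back self a)) = _
  congr 1
  funext b
  simp [dir, self, back, Pi.single_apply]

namespace ValidTiling

variable {c : Z5 → St C}

lemma wfacts (hc : ValidTiling L c) (P : Z5) : WFacts (sig L (quadAt c P)) :=
  shape_facts (hc P).1.2.2.1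

lemma pfacts (hc : ValidTiling L c) (P : Z5) : PFacts (cell L (c P)) := by
  have h := (hc.wfacts P).p self
  simpa only [sig, quadAt_self] using h

lemma bounded (hc : ValidTiling L c) (P : Z5) : InBounds L (c P) ∧ WordNum L (c P) := by
  have h := (hc P).1.1 self
  rwa [quadAt_self] at h

/-- A tile and the one behind it on an axis. -/
lemma step (hc : ValidTiling L c) (P : Z5) (a : Fin 5) :
    EdgeNum L a (c P) (c (P - Pi.single a 1)) ∧
      EFacts a (cell L (c P)) (cell L (c (P - Pi.single a 1))) := by
  have h1 := (hc P).1.2.1 self a rfl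
  have h2 := (hc.wfacts P).e self a rfl
  simp only [sig, quadAt_self, quadAt_back] at h1 h2
  exact ⟨h1, h2⟩

/-- The checks made on a tile and the one below it. -/
lemma checks (hc : ValidTiling L c) (P : Z5) :
    AcceptPair (cell L (c P)) (cell L (c (P - Pi.single 1 1))) ∧ SpareOK (cell L (c P)) ∧
      ((claims L (c P)).zone = true → (c P).fin.v = table C (lo L (c P).x)) := by
  obtain ⟨hp, hs⟩ := (hc P).1.2.2.2.1
  have h1 := hp self rfl
  have h2 := hs self
  have h3 := (hc P).2 self
  simp only [sig, quadAt_self, quadAt_back] at h1 h2 h3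
  exact ⟨h1, h2, h3⟩

end ValidTiling

/-! ### Shells and columns -/

/-- The child at a position of a parent without bits. -/
def shell (C : Cfg) (L X Y : ℕ) (Z : Digits C) : St C :=
  child L (fun _ => false) (fun _ _ => false) X Y Z

/-- The fields of a child fixed by its position. -/
def SameShell (t t' : St C) : Prop := t.x = t'.x ∧ t.y = t'.y ∧ t.z = t'.z ∧ t.u = t'.u

/-- The claims fixed by the shell. -/
lemma SameShell.claims_eq {t t' : St C} (h : SameShell t t') :
    (claims L t).cx = (claims L t').cx ∧ (claims L t).cy = (claims L t').cy ∧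
      (claims L t).cm = (claims L t').cm ∧ (claims L t).ex.z = (claims L t').ex.z ∧
      (claims L t).ex.mach = (claims L t').ex.mach := by
  obtain ⟨h1, h2, h3, h4⟩ := h
  simp [claims, h1, h2, h3, h4]

/-- A stretch `f 0, …, f n` of one column of a parent, from its first row. -/
structure Col (L X : ℕ) (Z : Digits C) (n : ℕ) (f : ℕ → St C) : Prop where
  x_lt : X < H L
  n_lt : n < H L
  pos : ∀ j ≤ n, (f j).x = X ∧ (f j).y = j ∧ (f j).z = Z
  pfacts : ∀ j, 1 ≤ j → j ≤ n → PFacts (cell L (f j))
  step : ∀ j, j < n →
    EdgeNum L 1 (f (j + 1)) (f j) ∧ EFacts 1 (cell L (f (j + 1))) (cell L (f j))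

/-- Counters, running columns and rows in use of a column are those of children. -/
def ColumnStatement (C : Cfg) : Prop :=
  ∀ L, L₀ C ≤ L → ∀ X (Z : Digits C) n f, Col L X Z n f → ∀ j, 1 ≤ j → j ≤ n →
    SameShell (f j) (shell C L X j Z) ∧
      (M L ≤ j → (f j).fin.carry.isSome = (shell C L X j Z).fin.carry.isSome) ∧
      (IsCol L X 3 ∧ lo L X = 0 → MidDigits Z → (f j).fin.live = decide (IsLive C L j))

/-- The states of the scanning and table columns are computed from the bits. -/
def ColumnsStatement (C : Cfg) : Prop :=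
  ∀ L, L₀ C ≤ L → ∀ X (Z : Digits C) n f, Col L X Z n f → ∀ (τ : ℕ → Bool) (b : ℕ → Bits),
    (∀ j, 1 ≤ j → j ≤ n → (f j).fin.h = (child L τ b X j Z).fin.h) →
    ∀ j ≤ n,
      (M L ≤ j ∨ ((f 0).fin.carry = none ∧ (f 0).fin.eq = none ∧ (f 0).fin.look = none)) →
      (f j).fin.carry = (child L τ b X j Z).fin.carry ∧
        (f j).fin.eq = (child L τ b X j Z).fin.eq ∧
        (f j).fin.look = (child L τ b X j Z).fin.look

/-! ### Grids of parents -/

/-- The grid of parents with corner `o` explains positions and digits. -/
def Aligned (L : ℕ) (c : Z5 → St C) (o : Z5) : Prop :=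
  ∀ (P : Z5) (X Y : ℕ) (Z : Digits C), X < H L → Y < H L →
    (c (place L o P X Y Z)).x = X ∧ (c (place L o P X Y Z)).y = Y ∧
      (c (place L o P X Y Z)).z = Z

/-- Counters and rows in use are those of children. -/
def Shelled (L : ℕ) (c : Z5 → St C) (o : Z5) : Prop :=
  ∀ (P : Z5) (X Y : ℕ) (Z : Digits C), X < H L → Y < H L →
    SameShell (c (place L o P X Y Z)) (shell C L X Y Z) ∧
      (c (place L o P X Y Z)).fin.live = decide (IsLive C L Y)

/-- The digits of the slice where bits are read. -/
def midZ (C : Cfg) : Digits C := fun _ => ⟨1, by unfold base; omega⟩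

lemma middle_midZ : MidDigits (midZ C) := fun _ => by
  refine ⟨Nat.one_pos, ?_⟩
  show 1 + 1 < base C.k
  unfold base
  omega

/-- The column of the bit `k`. -/
def crossX (L k : ℕ) : ℕ := M L + 2 * k

/-- The height of the wire row of the bit `k`. -/
def crossY (L k : ℕ) : ℕ := M L + k * M L ^ 2

/-- The bit `k` of the parent `P`. -/
def bitAt (L : ℕ) (c : Z5 → St C) (o P : Z5) (k : ℕ) : Bool :=
  if k ≤ lastK C L then (c (place L o P (crossX L k) (crossY L k) (midZ C))).fin.h self else false

/-- The bits seen by the children of `P`. -/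
def bitQuad (L : ℕ) (c : Z5 → St C) (o P : Z5) : ℕ → Bits := fun k g =>
  bitAt L c o (P - dir g) k

/-- The shown bits are those of the parents. -/
def BitsOK (L : ℕ) (c : Z5 → St C) (o : Z5) : Prop :=
  ∀ (P : Z5) (X Y : ℕ) (Z : Digits C), X < H L → Y < H L →
    (c (place L o P X Y Z)).fin.h = (child L (table C) (bitQuad L c o P) X Y Z).fin.h ∧
      (c (place L o P X Y Z)).fin.vb = (child L (table C) (bitQuad L c o P) X Y Z).fin.vb

/-- A valid tiling has exactly one grid of parents. -/
def AlignStatement (C : Cfg) : Prop :=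
  ∀ L, L₀ C ≤ L → ∀ c : Z5 → St C, ValidTiling L c → ∃! o, IsOffset C L o ∧ Aligned L c o

/-- In an aligned valid tiling counters and rows in use are those of children. -/
def ShellStatement (C : Cfg) : Prop :=
  ∀ L, L₀ C ≤ L → ∀ (c : Z5 → St C) o, ValidTiling L c → Aligned L c o → Shelled L c o

/-- In an aligned valid tiling the shown bits are those of the parents. -/
def BitsStatement (C : Cfg) : Prop :=
  ∀ L, L₀ C ≤ L → ∀ (c : Z5 → St C) o, ValidTiling L c → Aligned L c o → Shelled L c o →
    BitsOK L c o

/-- An aligned valid tiling with these bits is the tiling of the children. -/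
def ChildrenStatement (C : Cfg) : Prop :=
  ∀ L, L₀ C ≤ L → ∀ (c : Z5 → St C) o, ValidTiling L c → Aligned L c o → Shelled L c o →
    BitsOK L c o → ∀ (P : Z5) (X Y : ℕ) (Z : Digits C), X < H L → Y < H L →
      c (place L o P X Y Z) = child L (table C) (bitQuad L c o P) X Y Z

/-! ### Corners -/

/-- The height of a corner: the first wire row above those in use. -/
def cornerH (C : Cfg) (L : ℕ) : ℕ := M L + (lastK C L + 1) * M L ^ 2

/-- The position `(i, j)` of the slice of a corner with origin `o`. -/
def cornerAt (o : Z5) (i j : ℕ) : Z5 := o + ![(i : ℤ), (j : ℤ), 1, 1, 1]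

/-- A valid patch at the first position of a parent. -/
structure Corner (L : ℕ) (c : Z5 → St C) (o : Z5) : Prop where
  valid : ∀ i j : ℕ, 1 ≤ i → i ≤ 7 * M L → 1 ≤ j → j ≤ cornerH C L →
    Valid L (quadAt c (cornerAt o i j))
  x_zero : (c o).x = 0
  y_zero : (c o).y = 0
  z_zero : ∀ i, ((c o).z i).val = 0

/-- The bits read at the crossings of a corner. -/
def cornerBits (L : ℕ) (c : Z5 → St C) (o : Z5) : ℕ → Bits := fun k =>
  if k ≤ lastK C L then (c (cornerAt o (crossX L k) (crossY L k))).fin.h else fun _ => false

/-- The slice of a corner is that of children with the bits read in it. -/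
def SliceStatement (C : Cfg) : Prop :=
  ∀ L, L₀ C ≤ L → ∀ (c : Z5 → St C) o, Corner L c o → ∀ i, 1 ≤ i → i ≤ 7 * M L →
    Col L i (midZ C) (cornerH C L) (fun j => c (cornerAt o i j)) ∧
      ∀ j, 1 ≤ j → j ≤ cornerH C L →
        (c (cornerAt o i j)).fin.h =
          (child L (table C) (cornerBits L c o) i j (midZ C)).fin.h

/-- The number of type `τ` of the guest `g` shown by the bits. -/
def numOf (C : Cfg) (L : ℕ) (b : ℕ → Bits) (g : Guest) (τ : ℕ) : ℕ :=
  Nat.ofBits fun i : Fin (L + 1) => b (A C + T C * i.val + τ) g

/-- The state of level `L + 1` with the given finite data and the numbers shown for `g`. -/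
def decodeSt (L : ℕ) (b : ℕ → Bits) (g : Guest) (s : Cell C) : St C where
  x := numOf C L b g 0 + M (L + 1) * numOf C L b g 1 + M (L + 1) ^ 2 * numOf C L b g 2
  y := numOf C L b g 3 + M (L + 1) * numOf C L b g 4 + M (L + 1) ^ 2 * numOf C L b g 5
  u := numOf C L b g 6
  w r := numOf C L b g (7 + r.val)
  z := s.2.ex.z
  fin := s.1

/-- What one corner shows of the window of its parents. -/
def CornerStatement (C : Cfg) : Prop :=
  ∀ L, L₀ C ≤ L → ∀ (c : Z5 → St C) o, Corner L c o → ∃ s : Sig C, InS s ∧
    (∀ k < A C, ∀ g, finBits (s g) k = cornerBits L c o k g) ∧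
    s self = cell (L + 1) (decodeSt L (cornerBits L c o) self (s self)) ∧
    (∀ g, InBounds (L + 1) (decodeSt L (cornerBits L c o) g (s g))) ∧
    (∀ i ≤ L, ∀ τ < T C, ∀ g, cornerBits L c o (A C + T C * i + τ) g =
      (num (L + 1) (decodeSt L (cornerBits L c o) g (s g)) τ).testBit i) ∧
    WordNum (L + 1) (decodeSt L (cornerBits L c o) self (s self)) ∧
    (∀ a, EdgeNum (L + 1) a (decodeSt L (cornerBits L c o) self (s self))
      (decodeSt L (cornerBits L c o) (axis a) (s (axis a)))) ∧
    ((claims (L + 1) (decodeSt L (cornerBits L c o) self (s self))).zone = true →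
      (s self).1.v = table C (lo (L + 1) (decodeSt L (cornerBits L c o) self (s self)).x))

end Vale.Agent.P193.W4.Common
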