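import Vale.Agent.P193.W4.Common.Desub.Defs

/-!
P193, module W4.A (common layer): in an aligned valid tiling the shown bits are those of the parents.

Along each axis other than its own, a shown bit is constant up to the cuts, and the guest coming
from behind on an axis is the one with one step less of the parent behind. Where a wire row meets
its bundle column the horizontal and the vertical bits are equal, so this holds there on all axes.
-/

noncomputable section

namespace Vale.Agent.P193.W4.Common

variable {C : Cfg}

namespace Claims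

lemma flags_congr {c d : Claims C} (hx : c.cx = d.cx) (hy : c.cy = d.cy)
    (hz : c.ex.z = d.ex.z) : c.firstAt = d.firstAt ∧ c.cutAt = d.cutAt := by
  constructor <;>
    simp [Claims.firstAt, Claims.cutAt, Claims.x0, Claims.isY0, Claims.cut, Claims.halfRow, hx,
      hy, hz]

end Claims

namespace ShownBits

variable {L : ℕ} {c : Z5 → St C} {o : Z5}

/-- The tile of a parent at a position. -/
def tileAt (L : ℕ) (c : Z5 → St C) (o P : Z5) (p : Fin 5 → ℕ) : St C :=
  c (o + extent C L * P + fun a => (p a : ℤ))

lemma tileAt_place (P : Z5) (X Y : ℕ) (Z : Digits C) :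
    tileAt L c o P (posAt X Y Z) = c (place L o P X Y Z) := by
  unfold tileAt place
  congr 2
  funext a
  fin_cases a <;> rfl

lemma exists_pos {p : Fin 5 → ℕ} (hp : ∀ a, p a < sizeOf' C L a) :
    ∃ (X Y : ℕ) (Z : Digits C), X < H L ∧ Y < H L ∧ posAt X Y Z = p :=
  ⟨p 0, p 1, ![⟨p 2, hp 2⟩, ⟨p 3, hp 3⟩, ⟨p 4, hp 4⟩], hp 0, hp 1, by
    funext a; fin_cases a <;> rfl⟩

lemma posAt_lt {X Y : ℕ} (hX : X < H L) (hY : Y < H L) (Z : Digits C) (a : Fin 5) :
    posAt X Y Z a < sizeOf' C L a := by
  fin_cases a
  exacts [hX, hY, (Z 0).isLt, (Z 1).isLt, (Z 2).isLt]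

lemma extent_size (a : Fin 5) : extent C L a = (sizeOf' C L a : ℤ) := by
  fin_cases a <;> rfl

/-- The tile behind on an axis. -/
lemma behind_tile (P : Z5) (p : Fin 5 → ℕ) (a : Fin 5) (hN : 0 < sizeOf' C L a) :
    c ((o + extent C L * P + fun e => (p e : ℤ)) - Pi.single a 1) =
      if p a = 0 then tileAt L c o (P - Pi.single a 1) (Function.update p a (sizeOf' C L a - 1))
      else tileAt L c o P (Function.update p a (p a - 1)) := by
  unfold tileAt
  split_ifs with h <;> congr 1 <;> funext e <;> by_cases he : e = a
  · subst he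
    simp [h, extent_size, Nat.cast_sub (show 1 ≤ sizeOf' C L e by omega)]
    ring
  · simp [he]
  · subst he
    simp [Nat.cast_sub (show 1 ≤ p e by omega)]
    ring
  · simp [he]

/-- Bits moving along an axis by the rule of shown bits. -/
lemma line {N ct : ℕ} (hc : 1 ≤ ct) {a : Fin 5} {F : ℕ → Bits} {Fm : Bits}
    (h0 : ∀ g, F 0 g = (g a && Fm (drop g a)))
    (hs : ∀ p, p + 1 < N → BitRule false (decide (p = ct)) (decide (p = 0)) a (F (p + 1)) (F p))
    {q : ℕ} (hq1 : 1 ≤ q) (hq : q ≤ ct) (hqN : q < N) (g : Guest) :
    ∀ p, p < N → F p g = if ShownA p ct (g a) then F q g else false := by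
  have key : ∀ p, p < N →
      F p g = if ShownA p ct (g a) then (if g a then F 0 g else F 1 g) else false := by
    intro p
    induction p with
    | zero =>
      intro _
      cases hg : g a
      · rw [h0 g, hg, if_neg fun h => absurd (h.1 rfl) Bool.false_ne_true]; rfl
      · rw [if_pos ⟨fun _ => rfl, fun h => absurd h (Nat.not_lt_zero _)⟩, if_pos rfl]
    | succ p ih =>
      intro hp
      have ih := ih (by omega)
      have h := hs p hp
      unfold BitRule at h
      rw [if_neg Bool.false_ne_true] at h
      by_cases hcut : p = ct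
      · rw [if_pos (decide_eq_true hcut)] at h
        rw [h g]
        cases hg : g a <;> simp [hg, ShownA] at ih ⊢
        · rw [ih]; simp [show p ≠ 0 by omega]
        · omega
      · rw [if_neg (by simp [hcut])] at h
        by_cases hz : p = 0
        · subst hz
          rw [if_pos (decide_eq_true rfl)] at h
          cases hg : g a
          · simp [ShownA]
          · rw [h g hg]
            simp [hg, ShownA] at ih ⊢
            omega
        · rw [if_neg (by simp [hz])] at h
          rw [h, ih]
          refine if_congr ?_ rfl rfl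
          unfold ShownA
          refine and_congr ?_ (imp_congr_left (by omega))
          exact ⟨fun _ h => absurd h (Nat.succ_ne_zero p), fun _ h => absurd h hz⟩
  intro p hp
  have hsh : ShownA q ct (g a) :=
    ⟨fun h => absurd h (by omega), fun h => absurd h (by omega)⟩
  rw [key p hp, key q hqN, if_pos hsh]

/-- Shown bits `π` which move along every axis but `ex`. -/
def Moves (L : ℕ) (c : Z5 → St C) (π : St C → Bits) (ex : Fin 5) : Prop :=
  ∀ (Q : Z5) (a : Fin 5), a ≠ ex →
    BitRule ((claims L (c Q)).firstAt a) ((claims L (c (Q - Pi.single a 1))).cutAt a)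
      ((claims L (c (Q - Pi.single a 1))).firstAt a) a (π (c Q)) (π (c (Q - Pi.single a 1)))

lemma moves_h (hc : ValidTiling L c) : Moves L c (fun t => t.fin.h) 1 :=
  fun Q a ha => (hc.step Q a).2.h ha

lemma moves_vb (hc : ValidTiling L c) : Moves L c (fun t => t.fin.vb) 0 :=
  fun Q a ha => (hc.step Q a).2.vb ha

variable (hL : L₀ C ≤ L) (hS : Shelled L c o)

include hL hS in
lemma flags (P : Z5) {p : Fin 5 → ℕ} (hp : ∀ a, p a < sizeOf' C L a) (a : Fin 5) :
    (claims L (tileAt L c o P p)).firstAt a = decide (p a = 0) ∧
      (claims L (tileAt L c o P p)).cutAt a = decide (p a = cutOf C L a) := by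
  obtain ⟨X, Y, Z, hX, hY, rfl⟩ := exists_pos hp
  rw [tileAt_place]
  obtain ⟨e1, e2, -, e4, -⟩ := (hS P X Y Z hX hY).1.claims_eq (L := L)
  obtain ⟨f1, f2⟩ := Claims.flags_congr e1 e2 e4
  rw [f1, f2, shell]
  refine ⟨?_, ?_⟩
  · rw [Bool.eq_iff_iff, decide_eq_true_iff, claims_first _ _ X Y Z hX hY, atFirst_iff]
  · rw [Bool.eq_iff_iff, decide_eq_true_iff, claims_cutAt hL _ _ X Y Z hX hY a]

variable {π : St C → Bits} {ex : Fin 5} (hm : Moves L c π ex)

include hL hS hm in
/-- The rules along one axis of a parent. -/
lemma axis_rules (P : Z5) {p : Fin 5 → ℕ} (hp : ∀ a, p a < sizeOf' C L a) {a : Fin 5}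
    (ha : a ≠ ex) :
    (∀ g, π (tileAt L c o P (Function.update p a 0)) g = (g a &&
      π (tileAt L c o (P - Pi.single a 1) (Function.update p a (sizeOf' C L a - 1))) (drop g a))) ∧
    ∀ n, n + 1 < sizeOf' C L a →
      BitRule false (decide (n = cutOf C L a)) (decide (n = 0)) a
        (π (tileAt L c o P (Function.update p a (n + 1))))
        (π (tileAt L c o P (Function.update p a n))) := by
  have hN : 0 < sizeOf' C L a := lt_of_le_of_lt (Nat.zero_le _) (hp a)
  have hu : ∀ n, n < sizeOf' C L a → ∀ e, Function.update p a n e < sizeOf' C L e := by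
    intro n hn e
    by_cases he : e = a
    · subst he; simpa using hn
    · simpa [he] using hp e
  constructor
  · intro g
    have h := hm (o + extent C L * P + fun e => ((Function.update p a 0 e : ℕ) : ℤ)) a ha
    rw [behind_tile (c := c) (o := o) P _ a hN, if_pos (by simp), Function.update_idem] at h
    have f := (flags hL hS P (hu 0 hN) a).1
    unfold tileAt at f
    rw [f] at h
    simp only [BitRule, Function.update_self, decide_true, if_true] at h
    exact h g
  · intro n hn
    have h := hm (o + extent C L * P + fun e => ((Function.update p a (n + 1) e : ℕ) : ℤ)) a ha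
    rw [behind_tile (c := c) (o := o) P _ a hN, if_neg (by simp), Function.update_idem, Function.update_self,
      Nat.add_sub_cancel, (flags hL hS P (hu n (by omega)) a).1,
      (flags hL hS P (hu n (by omega)) a).2] at h
    have f := (flags hL hS P (hu (n + 1) hn) a).1
    unfold tileAt at f
    rw [f] at h
    simpa [Function.update_self, tileAt] using h

include hL hS hm in
/-- A bit read at a point `q` between the cuts of an axis, and the guest from behind there. -/
lemma axis_line (P : Z5) {p : Fin 5 → ℕ} (hp : ∀ a, p a < sizeOf' C L a) {a : Fin 5}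
    (ha : a ≠ ex) {q : ℕ} (hq1 : 1 ≤ q) (hq : q ≤ cutOf C L a) (g : Guest) :
    π (tileAt L c o P p) g =
        (if ShownA (p a) (cutOf C L a) (g a) then π (tileAt L c o P (Function.update p a q)) g
          else false) ∧
      (g a = true → π (tileAt L c o P (Function.update p a q)) g =
        π (tileAt L c o (P - Pi.single a 1) (Function.update p a q)) (drop g a)) := by
  obtain ⟨hc1, hc⟩ := cut_bounds hL a
  have key : ∀ (P : Z5) g n, n < sizeOf' C L a →
      π (tileAt L c o P (Function.update p a n)) g =
        if ShownA n (cutOf C L a) (g a) then π (tileAt L c o P (Function.update p a q)) g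
        else false := fun P g n hn =>
    line (F := fun n => π (tileAt L c o P (Function.update p a n))) hc1
      (axis_rules hL hS hm P hp ha).1 (axis_rules hL hS hm P hp ha).2 hq1 hq (by omega) g n hn
  refine ⟨?_, fun hg => ?_⟩
  · have := key P g (p a) (hp a)
    rwa [Function.update_eq_self] at this
  · have h1 := key P g 0 (by omega)
    rw [if_pos ⟨fun _ => hg, fun h => absurd h (Nat.not_lt_zero _)⟩,
      (axis_rules hL hS hm P hp ha).1 g, hg, Bool.true_and,
      key _ _ (sizeOf' C L a - 1) (by omega),
      if_pos ⟨fun h => absurd h (by omega), fun _ => drop_self g a⟩] at h1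
    exact h1.symm

include hL hS hm in
/-- Sliding to a reference position on a set of axes. -/
lemma slide {r : Fin 5 → ℕ} (hr : ∀ a, 1 ≤ r a ∧ r a ≤ cutOf C L a) (g : Guest) (P : Z5)
    (S : Finset (Fin 5)) : ex ∉ S → ∀ p : Fin 5 → ℕ, (∀ a, p a < sizeOf' C L a) →
      π (tileAt L c o P p) g =
        if ∀ e ∈ S, ShownA (p e) (cutOf C L e) (g e) then
          π (tileAt L c o P (fun e => if e ∈ S then r e else p e)) g
        else false := by
  classical
  induction S using Finset.induction_on with
  | empty => intro _ p _; simp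
  | insert a S haS ih =>
    intro hex p hp
    simp only [Finset.mem_insert, not_or] at hex
    have hp' : ∀ e, Function.update p a (r a) e < sizeOf' C L e := by
      intro e
      by_cases he : e = a
      · subst he
        have := (cut_bounds hL e).2
        have := (hr e).2
        simp only [Function.update_self]
        omega
      · simpa [he] using hp e
    rw [(axis_line hL hS hm P hp (fun h => hex.1 h.symm) (hr a).1 (hr a).2 g).1,
      ih hex.2 _ hp', ← ite_and]
    refine if_congr ?_ (congrArg (fun q => π (tileAt L c o P q) g) ?_) rfl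
    · constructor
      · rintro ⟨h1, h2⟩ e he
        rcases Finset.mem_insert.1 he with rfl | he
        · exact h1
        · have := h2 e he
          rwa [Function.update_of_ne (fun h : e = a => haS (h ▸ he))] at this
      · intro h
        refine ⟨h a (Finset.mem_insert_self _ _), fun e he => ?_⟩
        rw [Function.update_of_ne (fun h : e = a => haS (h ▸ he))]
        exact h e (Finset.mem_insert_of_mem he)
    · funext e
      by_cases he : e = a
      · subst he; simp [haS]
      · simp [he]

end ShownBits

open ShownBits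

variable {L : ℕ}

/-- The crossing of the bit `k`. -/
lemma cross_facts (hL : L₀ C ≤ L) {k : ℕ} (hk : 2 * k < M L) :
    (IsBundle L (crossX L k) ∧ lo L (crossX L k) = 2 * k) ∧
      (IsWire L (crossY L k) ∧ hi L (crossY L k) = k) ∧ crossX L k < H L ∧ crossY L k < H L ∧
      ∀ a, 1 ≤ posAt (crossX L k) (crossY L k) (midZ C) a ∧
        posAt (crossX L k) (crossY L k) (midZ C) a ≤ cutOf C L a := by
  have hM := two_le_M hL
  obtain ⟨-, hc1, -, hc2⟩ := cuts_lt hL
  obtain ⟨a1, a2, a3⟩ := coord_of (L := L) (a := 0) (show 1 < M L by omega) hk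
  obtain ⟨b1, b2, b3⟩ := coord_of (L := L) (a := k) (show 1 < M L by omega) (M_pos L)
  rw [show M L ^ 2 * 0 + M L * 1 + 2 * k = crossX L k by unfold crossX; ring] at a1 a2 a3
  rw [show M L ^ 2 * k + M L * 1 + 0 = crossY L k by unfold crossY; ring] at b1 b2 b3
  have hx : crossX L k ≤ cutX L := by unfold crossX cutX; omega
  have hy : crossY L k ≤ halfY L := by
    have h : k * M L ^ 2 ≤ M L / 2 * M L ^ 2 := Nat.mul_le_mul_right _ (by omega)
    unfold crossY halfY
    omega
  refine ⟨⟨⟨⟨a1, a2⟩, by rw [a3]; omega⟩, a3⟩, ⟨⟨b3, b2⟩, b1⟩, by omega, by omega, fun a => ?_⟩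
  have hb := base_ge C.k
  fin_cases a <;> simp [posAt, cutOf, midZ, crossX, crossY] at hx hy ⊢ <;> omega

lemma eq_crossY {Y k : ℕ} (hw : IsWire L Y) (hk : hi L Y = k) : Y = crossY L k := by
  rw [coord_eq L Y, hw.1, hw.2, hk, crossY]
  ring

lemma eq_crossX {X k : ℕ} (hb : IsBundle L X) (hk : lo L X / 2 = k) : X = crossX L k := by
  have h := hb.2
  rw [coord_eq L X, hb.1.1, hb.1.2, crossX]
  omega

namespace ShownBits

variable {c : Z5 → St C} {o : Z5} (hL : L₀ C ≤ L) (hc : ValidTiling L c) (hS : Shelled L c o)

include hL hc hS in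
/-- The bits at a crossing. -/
lemma crossing {k : ℕ} (hk : 2 * k < M L) :
    ∀ P g, (c (place L o P (crossX L k) (crossY L k) (midZ C))).fin.h g = bitQuad L c o P k g ∧
      (c (place L o P (crossX L k) (crossY L k) (midZ C))).fin.vb g = bitQuad L c o P k g := by
  obtain ⟨hB, hW, hX, hY, hr⟩ := cross_facts hL hk
  set r := posAt (crossX L k) (crossY L k) (midZ C) with hrdef
  have hrN : ∀ a, r a < sizeOf' C L a := posAt_lt hX hY _
  have diag : ∀ P, (tileAt L c o P r).fin.h = (tileAt L c o P r).fin.vb := by
    intro P
    rw [hrdef, tileAt_place]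
    obtain ⟨e1, e2, e3, -, -⟩ := (hS P _ _ (midZ C) hX hY).1.claims_eq (L := L)
    refine (hc.pfacts _).diag ?_ ?_ ?_
    · show Claims.isWire (claims L _) = true
      have h := (claims_wire (fun _ => false) (fun _ _ => false) (crossX L k) _ (midZ C) hY).2 hW.1
      unfold Claims.isWire at h ⊢
      rw [e2]; exact h
    · show Claims.bundle (claims L _) = true
      have h := (claims_bundle (fun _ => false) (fun _ _ => false) _ (crossY L k) (midZ C) hX).2
        hB.1
      unfold Claims.bundle at h ⊢
      rw [e1]; exact h
    · show (claims L _).cm.diag = true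
      rw [e3]
      exact (claims_diag _ _ _ _ (midZ C) hX hY).2 (by rw [hB.2, hW.2])
  have back1 : ∀ P (g : Guest) a, g a = true → (tileAt L c o P r).fin.h g =
      (tileAt L c o (P - Pi.single a 1) r).fin.h (drop g a) := by
    intro P g a hg
    by_cases ha : a = 1
    · subst ha
      have h := (axis_line hL hS (moves_vb hc) P hrN (a := 1) (by decide) (hr 1).1 (hr 1).2 g).2 hg
      rw [Function.update_eq_self] at h
      rw [diag P, diag (P - _)]
      exact h
    · have h := (axis_line hL hS (moves_h hc) P hrN ha (hr a).1 (hr a).2 g).2 hg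
      rw [Function.update_eq_self] at h
      exact h
  have own : ∀ P, (tileAt L c o P r).fin.h self = bitAt L c o P k := by
    intro P
    rw [hrdef, tileAt_place]
    unfold bitAt
    split_ifs with hl
    · rfl
    · refine (hc.pfacts _).h_zero ?_ self
      show (c _).fin.live = false
      rw [(hS P _ _ (midZ C) hX hY).2]
      exact decide_eq_false fun h => hl (hW.2 ▸ h.2)
  have all : ∀ (S : Finset (Fin 5)) (g : Guest), (∀ e, g e = true → e ∈ S) → ∀ P,
      (tileAt L c o P r).fin.h g = bitQuad L c o P k g := by
    classical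
    intro S
    induction S using Finset.induction_on with
    | empty =>
      intro g hg P
      have : g = self := funext fun e =>
        Bool.eq_false_iff.2 fun h => Finset.notMem_empty e (hg e h)
      subst this
      rw [own, bitQuad, show P - dir self = P by funext b; simp [dir, self]]
    | insert a S _ ih =>
      intro g hg P
      by_cases hga : g a = true
      · rw [back1 P g a hga, ih (drop g a) (fun e he => ?_)]
        · unfold bitQuad
          congr 1
          funext b
          by_cases hb : b = a
          · subst hb; simp [dir, drop, hga]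
          · simp [dir, drop, hb]
        · have hea : e ≠ a := fun h => by subst h; simp [drop] at he
          exact (Finset.mem_insert.1 (hg e (by simpa [drop, hea] using he))).resolve_left hea
      · exact ih g (fun e he => (Finset.mem_insert.1 (hg e he)).resolve_left fun h => by
          subst h; exact hga he) P
  intro P g
  have h := all Finset.univ g (fun e _ => Finset.mem_univ e) P
  have d := congrFun (diag P) g
  rw [hrdef, tileAt_place] at h d
  exact ⟨h, d ▸ h⟩

include hL hc hS in
lemma h_eq (P : Z5) {X Y : ℕ} (Z : Digits C) (hX : X < H L) (hY : Y < H L) :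
    (c (place L o P X Y Z)).fin.h = (child L (table C) (bitQuad L c o P) X Y Z).fin.h := by
  funext g
  rw [child_h _ _ X Y Z hX hY]
  by_cases hl : IsLive C L Y
  swap
  · rw [if_neg fun h => hl h.1]
    refine (hc.pfacts _).h_zero ?_ g
    show (c _).fin.live = false
    rw [(hS P X Y Z hX hY).2]
    exact decide_eq_false hl
  have hk : 2 * hi L Y < M L := by
    have := hl.2
    have := bounds_M hL
    omega
  obtain ⟨-, -, -, -, hr⟩ := cross_facts hL hk
  have e := eq_crossY hl.1 rfl
  have h := slide hL hS (moves_h hc) hr g P (Finset.univ.erase 1) (Finset.notMem_erase _ _) _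
    (posAt_lt hX hY Z)
  rw [show (fun e => if e ∈ Finset.univ.erase 1 then
      posAt (crossX L (hi L Y)) (crossY L (hi L Y)) (midZ C) e else posAt X Y Z e) =
      posAt (crossX L (hi L Y)) (crossY L (hi L Y)) (midZ C) by
    funext a
    by_cases ha : a = 1
    · subst ha; simp [posAt, ← e]
    · simp [ha]] at h
  rw [tileAt_place, tileAt_place] at h
  rw [h, (crossing hL hc hS hk P g).1]
  refine if_congr ?_ rfl rfl
  rw [shownH_iff X Y Z g]
  simp [hl]

include hL hc hS in
lemma vb_eq (P : Z5) {X Y : ℕ} (Z : Digits C) (hX : X < H L) (hY : Y < H L) :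
    (c (place L o P X Y Z)).fin.vb = (child L (table C) (bitQuad L c o P) X Y Z).fin.vb := by
  funext g
  rw [child_vb _ _ X Y Z hX hY]
  by_cases hb : IsBundle L X
  swap
  · rw [if_neg fun h => hb h.1]
    refine (hc.pfacts _).vb_zero ?_ g
    show Claims.bundle (claims L _) = false
    obtain ⟨e1, -⟩ := (hS P X Y Z hX hY).1.claims_eq (L := L)
    have h := mt (claims_bundle (C := C) (fun _ => false) (fun _ _ => false) X Y Z hX).1 hb
    rw [Bool.not_eq_true] at h
    unfold Claims.bundle at h ⊢
    rw [e1]; exact h
  have hk : 2 * (lo L X / 2) < M L := by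
    have : lo L X < M L := Nat.mod_lt _ (M_pos L)
    omega
  obtain ⟨-, -, -, -, hr⟩ := cross_facts hL hk
  have e := eq_crossX hb rfl
  have h := slide hL hS (moves_vb hc) hr g P (Finset.univ.erase 0) (Finset.notMem_erase _ _) _
    (posAt_lt hX hY Z)
  rw [show (fun e => if e ∈ Finset.univ.erase 0 then
      posAt (crossX L (lo L X / 2)) (crossY L (lo L X / 2)) (midZ C) e else posAt X Y Z e) =
      posAt (crossX L (lo L X / 2)) (crossY L (lo L X / 2)) (midZ C) by
    funext a
    by_cases ha : a = 0
    · subst ha; simp [posAt, ← e]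
    · simp [ha]] at h
  rw [tileAt_place, tileAt_place] at h
  rw [h, (crossing hL hc hS hk P g).2]
  by_cases hkl : lo L X / 2 ≤ lastK C L
  · refine if_congr ?_ rfl rfl
    rw [shownV_iff X Y Z g]
    simp [hb, hkl]
  · simp [bitQuad, bitAt, hkl]

end ShownBits

/-- In an aligned valid tiling the shown bits are those of the parents. -/
theorem bitsStatement (C : Cfg) : BitsStatement C := fun _ hL _ _ hc _ hS P _ _ Z hX hY =>
  ⟨ShownBits.h_eq hL hc hS P Z hX hY, ShownBits.vb_eq hL hc hS P Z hX hY⟩

end Vale.Agent.P193.W4.Common
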