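import Vale.Agent.P193.W4.Common.Desub.Defs

/-!
P193, module W4.A (common layer): an aligned valid tiling with the bits of its parents is the tiling
of the children.

The handed down data are constant inside a parent and are checked against the bits at the end of
the scanning column; the words are constant along all axes but the last and are read there at the
counter.
-/

noncomputable section

namespace Vale.Agent.P193.W4.Common

namespace Children

variable {C : Cfg} {L : ℕ}

/-- A function unchanged by steps along the axes other than `4` depends on the coordinate `4`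
only. -/
lemma const_off_four {α : Type} (f : Z5 → α)
    (h : ∀ Q (a : Fin 5), a ≠ 4 → f Q = f (Q - Pi.single a 1)) {Q Q' : Z5} (h4 : Q 4 = Q' 4) :
    f Q = f Q' := by
  have line : ∀ (Q : Z5) (a : Fin 5), a ≠ 4 → ∀ n : ℤ, f (Q + Pi.single a n) = f Q := by
    intro Q a ha n
    induction n using Int.induction_on with
    | zero => simp
    | succ n ih =>
      have e := h (Q + Pi.single a ((n : ℤ) + 1)) a ha
      rw [add_sub_assoc, ← Pi.single_sub, add_sub_cancel_right] at e
      exact e.trans ih
    | pred n ih =>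
      have e := h (Q + Pi.single a (-(n : ℤ))) a ha
      rw [add_sub_assoc, ← Pi.single_sub] at e
      exact e.symm.trans ih
  have e : Q' = Q + Pi.single (0 : Fin 5) (Q' 0 - Q 0) + Pi.single (1 : Fin 5) (Q' 1 - Q 1) +
      Pi.single (2 : Fin 5) (Q' 2 - Q 2) + Pi.single (3 : Fin 5) (Q' 3 - Q 3) := by
    funext b
    fin_cases b <;> simp [h4]
  rw [e, line _ 3 (by decide), line _ 2 (by decide), line _ 1 (by decide), line _ 0 (by decide)]

/-- Reading a number does not change the copy (stated for abstract values: the kernel must not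
unfold the concrete ones). -/
lemma readNum_copy (c : Carry C) (τ : ℕ) (q : Bits) (d : Option (Mach C)) :
    (c.readNum τ q d).copy = c.copy := by
  match τ with
  | 0 | 1 | 2 | 3 | 4 | 5 | 6 => rfl
  | r + 7 =>
    simp only [Carry.readNum]
    split_ifs <;> rfl

/-- The row step of an abstract state keeps the copy off the rows of the claims. -/
lemma stepRow_copy (c : Carry C) {k : ℕ} (m : ℕ) (q : Bits) (d : Option (Mach C))
    (h : k < AF C ∨ A C - 2 ≤ k) : (c.stepRow k m q d).copy = c.copy := by
  unfold Carry.stepRow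
  by_cases h1 : k < AF C
  · rw [if_pos h1]
  rw [if_neg h1, if_neg (by omega)]
  split_ifs
  · rfl
  · exact readNum_copy c _ q d

/-- The scanning column copies the claims of the own parent. -/
lemma scan_copy (b : ℕ → Bits) : ∀ k, (scan C L b k).copy = copyUpTo C b (k + 1) := by
  have hF := AF_lt C
  have hstep : ∀ (c : Carry C) (k : ℕ), c.copy = copyUpTo C b k →
      (c.step L k b).copy = copyUpTo C b (k + 1) := by
    intro c k hc
    by_cases h2 : AF C ≤ k ∧ k < A C - 2
    · rw [Carry.step, Carry.stepRow, if_neg (by omega), if_pos h2.2]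
      refine Fin.ext ?_
      simp only [Carry.readClaim, hc, copyUpTo]
      rw [show min (k - AF C) (A C - 2 - AF C) = k - AF C by omega,
        show min (k + 1 - AF C) (A C - 2 - AF C) = (k - AF C) + 1 by omega,
        Finset.sum_range_succ, show AF C + (k - AF C) = k by omega, Nat.mod_add_mod]
    · rw [Carry.step, stepRow_copy c _ _ _ (by omega), hc]
      refine Fin.ext ?_
      simp only [copyUpTo]
      rw [show min (k + 1 - AF C) (A C - 2 - AF C) = min (k - AF C) (A C - 2 - AF C) by omega]
  intro k
  induction k with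
  | zero =>
    refine hstep _ 0 (Fin.ext ?_)
    simp [Carry.init, copyUpTo]
  | succ k ih => exact hstep _ (k + 1) ih

/-- The crossings are wire rows with their index. -/
lemma crossY_facts (hL : L₀ C ≤ L) {k : ℕ} (hk : k ≤ lastK C L + 1) :
    IsWire L (crossY L k) ∧ hi L (crossY L k) = k ∧ crossY L k < H L := by
  have hM := nine_le_M hL
  obtain ⟨-, hb, -, -⟩ := bounds_M hL
  obtain ⟨h1, h2, h3⟩ := coord_of (L := L) (a := k) (c := 1) (e := 0) (by omega) (M_pos L)
  rw [show M L ^ 2 * k + M L * 1 + 0 = crossY L k by unfold crossY; ring] at h1 h2 h3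
  refine ⟨⟨h3, h2⟩, h1, ?_⟩
  have h4 : (k + 2) * M L ^ 2 ≤ M L * M L ^ 2 := Nat.mul_le_mul_right _ (by omega)
  have := M_le_sq L
  have := M_pos L
  rw [Nat.add_mul] at h4
  rw [H_eq, crossY]
  omega

/-- The scanning column. -/
lemma scanX_facts (hL : L₀ C ≤ L) : IsCol L (M L * 3) 3 ∧ lo L (M L * 3) = 0 ∧ M L * 3 < H L := by
  have hM := nine_le_M hL
  obtain ⟨h1, h2⟩ := (col0_iff (L := L) (x := M L * 3) (show 3 < M L by omega)).2 rfl
  refine ⟨h1, h2, ?_⟩
  rw [H_eq]
  refine Nat.mul_lt_mul_of_pos_left ?_ (M_pos L)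
  have := M_le_sq L
  omega

variable {c : Z5 → St C} {o : Z5}

lemma place_apply (P : Z5) (X Y : ℕ) (Z : Digits C) (a : Fin 5) :
    place L o P X Y Z a = o a + extent C L a * P a + (posAt X Y Z a : ℤ) := by
  fin_cases a <;> rfl

lemma place_four (P : Z5) (X Y : ℕ) (Z : Digits C) :
    place L o P X Y Z 4 = o 4 + extent C L 4 * P 4 + ((Z 2).val : ℤ) := place_apply P X Y Z 4

lemma place_step (P : Z5) {X Y X' Y' : ℕ} {Z Z' : Digits C} {a : Fin 5}
    (h : ∀ b, posAt X Y Z b = posAt X' Y' Z' b + if b = a then 1 else 0) :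
    place L o P X Y Z - Pi.single a 1 = place L o P X' Y' Z' := by
  funext b
  rw [Pi.sub_apply, place_apply, place_apply, Pi.single_apply, h b]
  split_ifs <;> push_cast <;> ring

lemma place_stepX (P : Z5) (X Y : ℕ) (Z : Digits C) :
    place L o P (X + 1) Y Z - Pi.single 0 1 = place L o P X Y Z :=
  place_step P fun b => by fin_cases b <;> simp [posAt]

lemma place_stepY (P : Z5) (X Y : ℕ) (Z : Digits C) :
    place L o P X (Y + 1) Z - Pi.single 1 1 = place L o P X Y Z :=
  place_step P fun b => by fin_cases b <;> simp [posAt]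

lemma place_stepZ (P : Z5) (X Y : ℕ) {Z Z' : Digits C} {i : Fin 3}
    (hi : (Z i).val = (Z' i).val + 1) (hne : ∀ j, j ≠ i → Z' j = Z j) :
    place L o P X Y Z - Pi.single (zAx i) 1 = place L o P X Y Z' := by
  have e : ∀ j, (Z j).val = (Z' j).val + if j = i then 1 else 0 := by
    intro j
    by_cases h : j = i
    · subst h; simp [hi]
    · simp [h, hne j h]
  refine place_step P fun b => ?_
  have e0 := e 0; have e1 := e 1; have e2 := e 2
  fin_cases i <;> fin_cases b <;> simp [posAt, zAx] at e0 e1 e2 ⊢ <;> assumption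

/-- Whether a tile is the first of its parent on an axis. -/
lemma firstAt_same {t : St C} {X Y : ℕ} {Z : Digits C} (hX : X < H L) (hY : Y < H L)
    (hs : SameShell t (shell C L X Y Z)) {a : Fin 5} (h : atFirst X Y Z a = false) :
    (claims L t).firstAt a = false := by
  obtain ⟨e1, e2, -, e3, -⟩ := hs.claims_eq (L := L)
  have e : (claims L t).firstAt = (claims L (shell C L X Y Z)).firstAt := by
    simp only [Claims.firstAt, Claims.x0, Claims.isY0, e1, e2, e3]
  rw [e]
  refine Bool.eq_false_iff.2 fun h' => ?_
  rw [(claims_first _ _ X Y Z hX hY a).1 h'] at h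
  exact Bool.noConfusion h

/-- The first digits. -/
def zeroZ (C : Cfg) : Digits C := fun _ => ⟨0, by unfold base; omega⟩

section

variable (hc : ValidTiling L c) (hs : Shelled L c o)
include hc

/-- The word and its presence depend on the coordinate `4` only. -/
lemma word_const {Q Q' : Z5} (h4 : Q 4 = Q' 4) :
    (c Q).fin.wOn = (c Q').fin.wOn ∧ (c Q).w = (c Q').w := by
  refine ⟨const_off_four (fun Q => (c Q).fin.wOn) (fun Q a ha => ?_) h4,
    const_off_four (fun Q => (c Q).w) (fun Q a ha => ((hc.step Q a).1.2.2.2.1 ha)) h4⟩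
  have h := (hc Q).1.2.2.2.2.on self a rfl ha
  simpa only [sig, quadAt_self, quadAt_back] using h

include hs

/-- The data handed down are constant in a parent. -/
lemma pf_const (P : Z5) {X Y : ℕ} (Z : Digits C) (hX : X < H L) (hY : Y < H L) :
    (c (place L o P X Y Z)).fin.pf =
      (c (place L o P 0 0 (zeroZ C))).fin.pf := by
  have edge : ∀ (X Y : ℕ) (Z : Digits C), X < H L → Y < H L → ∀ a, atFirst X Y Z a = false →
      (c (place L o P X Y Z)).fin.pf = (c (place L o P X Y Z - Pi.single a 1)).fin.pf := by
    intro X Y Z hX hY a ha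
    exact (hc.step _ a).2.pf (firstAt_same hX hY (hs P X Y Z hX hY).1 ha)
  have hx : ∀ (X Y : ℕ) (Z : Digits C), X < H L → Y < H L →
      (c (place L o P X Y Z)).fin.pf = (c (place L o P 0 Y Z)).fin.pf := by
    intro X
    induction X with
    | zero => intros; rfl
    | succ X ih =>
      intro Y Z hX hY
      rw [edge _ _ _ hX hY 0 (by simp [atFirst]), place_stepX]
      exact ih Y Z (by omega) hY
  have hy : ∀ (Y : ℕ) (Z : Digits C), Y < H L → (c (place L o P 0 Y Z)).fin.pf = (c (place L o P 0 0 Z)).fin.pf := by
    intro Y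
    induction Y with
    | zero => intros; rfl
    | succ Y ih =>
      intro Z hY
      rw [edge _ _ _ (H_pos L) hY 1 (by simp [atFirst]), place_stepY]
      exact ih Z (by omega)
  let z : Fin (base C.k) := ⟨0, by unfold base; omega⟩
  have hz : ∀ (i : Fin 3) (n : ℕ) (Z : Digits C), (Z i).val = n →
      (c (place L o P 0 0 Z)).fin.pf = (c (place L o P 0 0 (Function.update Z i z))).fin.pf := by
    intro i n
    induction n with
    | zero =>
      intro Z h
      rw [show z = Z i from Fin.ext h.symm, Function.update_eq_self]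
    | succ n ih =>
      intro Z h
      have hn : n < base C.k := by have := (Z i).isLt; omega
      rw [edge _ _ _ (H_pos L) (H_pos L) (zAx i) (by
          fin_cases i <;> simp [atFirst, zAx] at h ⊢ <;>
            exact fun e => by simp [e] at h),
        place_stepZ P 0 0 (Z' := Function.update Z i ⟨n, hn⟩) (i := i) (by simp [h])
          (fun j hj => by simp [hj]),
        ih _ (by simp), Function.update_idem]
  rw [hx X Y Z hX hY, hy Y Z hY, hz 0 _ Z rfl, hz 1 _ _ rfl, hz 2 _ _ rfl]
  refine congrArg (fun Z => (c (place L o P 0 0 Z)).fin.pf) (funext fun i => ?_)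
  fin_cases i <;> simp [z, zeroZ]

end

/-- States with the same fields. -/
lemma st_eq {t t' : St C} (hx : t.x = t'.x) (hy : t.y = t'.y) (hz : t.z = t'.z) (hu : t.u = t'.u)
    (hw : t.w = t'.w) (h1 : t.fin.h = t'.fin.h) (h2 : t.fin.vb = t'.fin.vb)
    (h3 : t.fin.carry = t'.fin.carry) (h4 : t.fin.eq = t'.fin.eq) (h5 : t.fin.v = t'.fin.v)
    (h6 : t.fin.look = t'.fin.look) (h7 : t.fin.live = t'.fin.live)
    (h8 : t.fin.pf = t'.fin.pf) (h9 : t.fin.wOn = t'.fin.wOn) : t = t' := by
  obtain ⟨_, _, _, _, _, ⟨_, _, _, _, _, _, _, _, _⟩⟩ := t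
  obtain ⟨_, _, _, _, _, ⟨_, _, _, _, _, _, _, _, _⟩⟩ := t'
  simp only at *
  subst_vars
  rfl

end Children

open Children

variable {C : Cfg}

/-- An aligned valid tiling with these bits is the tiling of the children. -/
theorem children_of_columns (hcols : ColumnsStatement C) : ChildrenStatement C := by
  intro L hL c o hc ha hs hb P
  set b := bitQuad L c o P with hbdef
  -- the tiles of a parent
  have hcols' : ∀ (X : ℕ) (Z : Digits C), X < H L → ∀ Y, Y < H L →
      (c (place L o P X Y Z)).fin.carry = (child L (table C) b X Y Z).fin.carry ∧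
        (c (place L o P X Y Z)).fin.eq = (child L (table C) b X Y Z).fin.eq ∧
        (c (place L o P X Y Z)).fin.look = (child L (table C) b X Y Z).fin.look := by
    intro X Z hX Y hY
    have hH := H_pos L
    have col : Col L X Z (H L - 1) fun j => c (place L o P X j Z) := by
      refine ⟨hX, by omega, fun j hj => ha P X j Z hX (by omega), fun j _ _ => hc.pfacts _,
        fun j hj => ?_⟩
      have := hc.step (place L o P X (j + 1) Z) 1
      rwa [place_stepY] at this
    refine hcols L hL X Z (H L - 1) _ col (table C) b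
      (fun j _ hj => (hb P X j Z hX (by omega)).1) Y (by omega) (Or.inr ?_)
    have hE := (hc.step (place L o P X 0 Z) 1).2
    obtain ⟨-, e2, -, -, -⟩ := (hs P X 0 Z hX hH).1.claims_eq (L := L)
    have h0 : (claims L (c (place L o P X 0 Z))).isY0 = true := by
      have := (claims_y0 (fun _ => false) (fun _ _ => false) X 0 Z hH).2 rfl
      simp only [Claims.isY0] at this ⊢
      rw [e2]
      exact this
    have hw : (claims L (c (place L o P X 0 Z))).isWire = false := by
      simp only [Claims.isWire, e2]
      refine Bool.eq_false_iff.2 fun h => ?_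
      exact (rows_zero (C := C) hL).1
        ((claims_wire (fun _ => false) (fun _ _ => false) X 0 Z hH).1 h)
    refine ⟨(hE.carry rfl).trans ?_, (hE.eq rfl).trans ?_, (hE.look rfl).trans ?_⟩
    · simp [carryNext, h0, hw]
    · simp [eqNext, h0]
    · simp [lookNext, h0]
  -- the claims of a tile
  have hclaims : ∀ {X Y : ℕ} {Z : Digits C}, X < H L → Y < H L →
      SameShell (c (place L o P X Y Z)) (child L (table C) b X Y Z) := by
    intro X Y Z hX hY
    obtain ⟨e1, e2, e3, e4⟩ := (hs P X Y Z hX hY).1
    simp only [shell, child_x _ _ _ _ _ hX, child_y _ _ _ _ _ hY, child_z,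
      child_u _ _ _ _ _ hX hY] at e1 e2 e3 e4
    refine ⟨?_, ?_, ?_, ?_⟩ <;>
      simp only [child_x _ _ _ _ _ hX, child_y _ _ _ _ _ hY, child_z, child_u _ _ _ _ _ hX hY,
        e1, e2, e3, e4]
  -- the data handed down
  have hpf : ∀ {X Y : ℕ} {Z : Digits C}, X < H L → Y < H L →
      (c (place L o P X Y Z)).fin.pf = pfOf C b := by
    intro X Y Z hX hY
    obtain ⟨hx1, hx2, hx3⟩ := scanX_facts hL
    obtain ⟨hw, hk, hlt⟩ := crossY_facts hL (le_refl (lastK C L + 1))
    obtain ⟨y, hy⟩ : ∃ y, crossY L (lastK C L + 1) = y + 1 :=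
      ⟨crossY L (lastK C L + 1) - 1, by have := M_le_of_wire hw; have := M_pos L; omega⟩
    rw [hy] at hw hk hlt
    obtain ⟨hMy, hyi⟩ := ((rows_succ hL y).2.2.1 hw).2.2.2 (by omega)
    have hidx : rowIdx L y = lastK C L := by omega
    have hA := AF_lt C
    have hd : (c (place L o P (M L * 3) y (midZ C))).fin.carry =
        some (scan C L b (lastK C L)) := by
      rw [(hcols' _ _ hx3 y (by omega)).1, child_carry _ _ _ _ _ hx3 (by omega),
        if_pos ⟨hx1, hx2, hMy, by rw [hidx]; unfold lastK; omega, hidx.le, middle_midZ⟩, hidx]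
    have ht : (c (place L o P (M L * 3) (y + 1) (midZ C))).fin.carry = none := by
      rw [(hcols' _ _ hx3 _ hlt).1, child_carry _ _ _ _ _ hx3 hlt, if_neg]
      intro h
      have := h.2.2.2.2.1
      rw [rowIdx_wire hw, hk] at this
      omega
    have hacc := (hc.checks (place L o P (M L * 3) (y + 1) (midZ C))).1
    rw [place_stepY] at hacc
    obtain ⟨⟨m, hm, -⟩, hread⟩ := hacc.1 _ hd ht
    have hcopy : copyUpTo C b (A C) = (scan C L b (lastK C L)).copy := by
      rw [scan_copy]
      have : A C ≤ lastK C L + 1 := by unfold lastK; omega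
      have key : ∀ a f n : ℕ, a - 2 ≤ n → min (n - f) (a - 2 - f) = a - 2 - f := by omega
      have e := fun n (h : A C - 2 ≤ n) => key (A C) (AF C) n h
      simp only [copyUpTo, e _ (Nat.sub_le _ _), e _ (le_trans (Nat.sub_le _ _) this)]
    rw [pf_const hc hs P Z hX hY, ← pf_const hc hs P (midZ C) hx3 (show y < H L by omega)]
    refine (hread m hm).trans ?_
    rw [pfOf, hcopy, hm]
    rfl
  -- the word
  have hon : ∀ {X Y : ℕ} {Z : Digits C}, X < H L → Y < H L →
      (c (place L o P X Y Z)).fin.wOn = childOn L b Z := by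
    intro X Y Z hX hY
    obtain ⟨hx1, hx2, hx3⟩ := scanX_facts hL
    have hA : A C ≤ lastK C L := by unfold lastK; omega
    obtain ⟨hw, hk, hlt⟩ := crossY_facts hL (show A C ≤ lastK C L + 1 by omega)
    rw [(word_const hc (Q' := place L o P (M L * 3) (crossY L (A C)) Z)
      (by simp only [place_four])).1]
    have hp := hc.pfacts (place L o P (M L * 3) (crossY L (A C)) Z)
    have hsame := hclaims (Z := Z) hx3 hlt
    have ez : (claims L (c (place L o P (M L * 3) (crossY L (A C)) Z))).ex.z = Z := hsame.2.2.1
    rcases hsym : sym (Z 2) with _ | m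
    · rw [hp.on_none (by simp [ez, hsym]) (by simp [ez, hsym])]
      simp [childOn, hsym]
    cases m
    case pass =>
      rw [hp.on_pass (by simp [ez, hsym]), hpf hx3 hlt, childOn_pass b Z hsym]
    case reset =>
      have hidx := rowIdx_wire hw
      have hmach : (claims L (c (place L o P (M L * 3) (crossY L (A C)) Z))).ex.mach =
          some (machAt C L 0) := by
        rw [(hsame.claims_eq (L := L)).2.2.2.2,
          claims_mach _ _ _ _ _ hx3 hlt ⟨hx1, hx2⟩ (M_le_of_wire hw) (by omega), hidx, hk,
          Nat.sub_self, Nat.zero_div, scanMach, if_pos]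
        have := bounds_M hL
        omega
      rw [hp.on_reset (by simp [ez, hsym]) _ hmach]
      simp [childOn, hsym, machAt]
    all_goals
      rw [hp.on_none (by simp [ez, hsym]) (by simp [ez, hsym])]
      simp [childOn, hsym]
  have hword : ∀ {X Y : ℕ} {Z : Digits C}, X < H L → Y < H L →
      (c (place L o P X Y Z)).w = childWord L b Z := by
    intro X Y Z hX hY
    funext r
    by_cases hone : childOn L b Z = true
    swap
    · rw [childWord, if_neg hone]
      exact (hc.bounded _).2.off (by rw [hon hX hY]; simpa using hone) r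
    have hsym : sym (Z 2) = some .reset ∨ sym (Z 2) = some .pass := by
      rcases h : sym (Z 2) with _ | m
      · simp [childOn, h] at hone
      · cases m <;> simp [childOn, h] at hone ⊢
    -- the slice with the same last digit
    let Z' : Digits C := ![midZ C 0, midZ C 1, Z 2]
    have hmid : MidDigits Z' := by
      intro i
      fin_cases i
      · exact middle_midZ 0
      · exact middle_midZ 1
      · show 0 < (Z 2).val ∧ (Z 2).val + 1 < base C.k
        have key : ∀ m, sym (Z 2) = some m → 0 < (Z 2).val ∧ (Z 2).val + 1 < base C.k := by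
          intro m h
          rw [← sym_eq_some.1 h]
          have := (Fintype.equivFin (Mid C.k) m).isLt
          simp only [pos, base]
          omega
        rcases hsym with h | h <;> exact key _ h
    have honZ : childOn L b Z' = true := hone
    refine Nat.eq_of_testBit_eq fun i => ?_
    by_cases hi : i < L
    swap
    · have hz : ((c (place L o P X Y Z)).w r).testBit i = false :=
        Nat.testBit_eq_false_of_lt (lt_of_lt_of_le ((hc.bounded _).1.2.2.2 r)
          (Nat.pow_le_pow_right two_pos (not_lt.1 hi)))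
      rw [hz, childWord, if_pos hone]
      rcases hsym with h | h <;> simp [h, kWord, wOf, testBit_sum, hi]
    have hT := T_ge C
    have hr := r.isLt
    have hle : T C * i + T C ≤ T C * L := by
      rw [← Nat.mul_succ]
      exact Nat.mul_le_mul_left _ hi
    obtain ⟨hx1, hx2, hx3⟩ := scanX_facts hL
    have hk' : A C + T C * i + 7 + r.val ≤ lastK C L := by unfold lastK; omega
    obtain ⟨hw, hk, hlt⟩ :=
      crossY_facts hL (show A C + T C * i + 7 + r.val ≤ lastK C L + 1 by omega)
    set Y' := crossY L (A C + T C * i + 7 + r.val) with hY'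
    rw [(word_const hc (Q' := place L o P (M L * 3) Y' Z')
      (by simp [place_four, Z'])).2]
    have hsame := hclaims (Z := Z') hx3 hlt
    have hidx : rowIdx L Y' = A C + T C * i + 7 + r.val := (rowIdx_wire hw).trans hk
    have hdiv : (rowIdx L Y' - A C) / T C = i := by
      rw [hidx, show A C + T C * i + 7 + r.val - A C = (7 + r.val) + T C * i by omega,
        Nat.add_mul_div_left _ _ (T_pos C), Nat.div_eq_of_lt (by omega), Nat.zero_add]
    have hMw := M_le_of_wire hw
    have hu : (c (place L o P (M L * 3) Y' Z')).u = 2 ^ i := by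
      rw [hsame.2.2.2, child_u_scan _ _ _ _ _ hx3 hlt ⟨hx1, hx2⟩ hMw (by omega), hdiv, M,
        Nat.mod_eq_of_lt (Nat.pow_lt_pow_right (by norm_num) hi)]
    have hwd : (claims L (c (place L o P (M L * 3) Y' Z'))).ex.wd r =
        ((c (place L o P (M L * 3) Y' Z')).w r).testBit i := by
      simp [claims, hu, Nat.log_pow]
    have hmach : (claims L (c (place L o P (M L * 3) Y' Z'))).ex.mach = some (machAt C L i) := by
      simp [claims, hu, Nat.log_pow]
    have honc : (c (place L o P (M L * 3) Y' Z')).fin.wOn = true := (hon hx3 hlt).trans honZ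
    have hp := hc.pfacts (place L o P (M L * 3) Y' Z')
    have ez : (claims L (c (place L o P (M L * 3) Y' Z'))).ex.z = Z' := hsame.2.2.1
    have ez2 : Z' 2 = Z 2 := rfl
    rw [← hwd, childWord, if_pos hone]
    rcases hsym with h | h
    · rw [hp.wd_reset (by simp [ez, ez2, h]) honc _ hmach r]
      simp [h, testBit_kWord r hi]
    · obtain ⟨e1, e2, e3, e4, -⟩ := hsame.claims_eq (L := L)
      have hlive : IsLive C L Y' := ⟨hw, by rw [hk]; exact hk'⟩
      have hq := hp.wd_pass (by simp [ez, ez2, h]) honc
        (by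
          simp only [Claims.isScan, e1]
          exact (claims_scan _ _ _ _ _ hx3).2 ⟨hx1, hx2⟩)
        (by simp only [Claims.middle, ez]; exact decide_eq_true hmid)
        (by
          simp only [Claims.isWire, e2]
          exact (claims_wire _ _ _ _ _ hlt).2 hw)
        (by
          have key : ∀ a m n k Y : ℕ, a < Y → a ≤ min (a + m + n + k) Y := by omega
          simp only [e2, claims_yhC _ _ _ _ _ hlt, hk]
          exact key _ _ _ _ _ (A_lt_YB C))
        (by simp [claims, hu]) r
        (by
          simp only [e2, claims_yhMod _ _ _ _ _ hlt, hk]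
          obtain ⟨q, hq⟩ := T_dvd_A C
          have key : ∀ t u v w : ℕ, t * u + t * v + 7 + w = (7 + w) + t * (u + v) :=
            fun t u v w => by ring
          rw [hq, key, Nat.add_mul_mod_self_left, Nat.mod_eq_of_lt (by omega), Nat.add_comm])
      rw [hq, (hb P _ _ _ hx3 hlt).1, ← hbdef,
        band_h hL _ b hx3 hlt hx1 (by norm_num) (by norm_num) hlive hmid, hk]
      simp [h, testBit_wOf b r hi]
  -- all fields
  intro X Y Z hX hY
  obtain ⟨ex, ey, ez, eu⟩ := hclaims (Z := Z) hX hY
  obtain ⟨ecarry, eeq, elook⟩ := hcols' X Z hX Y hY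
  refine st_eq ex ey ez eu (hword hX hY) (hb P X Y Z hX hY).1 (hb P X Y Z hX hY).2 ecarry eeq ?_
    elook ?_ (hpf hX hY) (hon hX hY)
  · rw [child_v _ _ _ _ _ hX hY]
    have hz : (claims L (c (place L o P X Y Z))).zone =
        (claims L (child L (table C) b X Y Z)).zone := by
      obtain ⟨e1, e2, -, -, -⟩ := (hclaims (Z := Z) hX hY).claims_eq (L := L)
      simp only [Claims.zone, Claims.zoneAt, e1, e2]
    split_ifs with h
    · rw [(hc.checks _).2.2 (hz.trans ((claims_zone _ _ _ _ _ hX hY).2 h)), ex,
        child_x _ _ _ _ _ hX]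
    · exact (hc.pfacts _).v_zone (hz.trans (Bool.eq_false_iff.2 fun h' =>
        h ((claims_zone _ _ _ _ _ hX hY).1 h')))
  · rw [child_live _ _ _ _ _ hY]
    exact (hs P X Y Z hX hY).2

end Vale.Agent.P193.W4.Common
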