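import Vale.Agent.P193.W4.Common.Desub.Defs
import Vale.Agent.P193.W4.Common.Facts.Counter

/-!
P193, module W4.A (common layer): a column of a parent from its first row is that of children.
Counters and rows in use follow from the positions; the running columns are recursions on the bits.
-/

noncomputable section

namespace Vale.Agent.P193.W4.Common

variable {C : Cfg} {L : ℕ}

/-- The counter is determined by the position and the counter below. -/
lemma counterNum_det {T D T' D' : St C} (h : CounterNum L T D) (h' : CounterNum L T' D')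
    (hx : T.x = T'.x) (hy : T.y = T'.y) (hd : A C ≤ min (hi L T.y) (YB C) → D.u = D'.u) :
    T.u = T'.u := by
  have e1 : (claims L T).cx = (claims L T').cx := by simp [claims, hx]
  have e2 : (claims L T).cy = (claims L T').cy := by simp [claims, hy]
  have e4 : (claims L T').cy.yhC.val = min (hi L T'.y) (YB C) := rfl
  rw [hy] at hd
  have e3 : (claims L T).isScan = (claims L T').isScan := by simp only [Claims.isScan, e1]
  have e5 : (claims L T).isWire = (claims L T').isWire := by simp only [Claims.isWire, e2]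
  unfold CounterNum at h h'
  simp only [e3, e5, e2, hy] at h
  simp only at h'
  generalize claims L T' = cl at h h' e4
  split_ifs at h h' with h1 h2 h3
  · exact h.trans h'.symm
  · rw [h, h', hd]
    simp only [Bool.and_eq_true, decide_eq_true_iff, e4] at h1
    exact h1.2
  · rw [h, h', hd]
    simp only [Bool.and_eq_true, decide_eq_true_iff, e4] at h1
    exact h1.2
  · exact h.trans h'.symm

lemma isSome_carryNext {t t' d d' : Claims C} {dc dc' : Option (Carry C)} (q q' : Bits)
    (h1 : t.cx = t'.cx) (h2 : t.cy = t'.cy) (h3 : t.cm = t'.cm) (h4 : t.ex.z = t'.ex.z)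
    (h5 : d.cm = d'.cm) (h : dc.isSome = dc'.isSome) :
    (carryNext t d dc q).isSome = (carryNext t' d' dc' q').isSome := by
  unfold carryNext endPhase Claims.isScan Claims.middle Claims.isWire Claims.isY0
  simp only [h1, h2, h3, h4, h5]
  split_ifs <;> simp [h]

lemma carryNext_congr {t t' d d' : Claims C} (dc : Option (Carry C)) (q : Bits)
    (h1 : t.cx = t'.cx) (h2 : t.cy = t'.cy) (h3 : t.cm = t'.cm) (h4 : t.ex.z = t'.ex.z)
    (h5 : t.ex.mach = t'.ex.mach) (h6 : d.cm = d'.cm) :
    carryNext t d dc q = carryNext t' d' dc q := by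
  unfold carryNext endPhase Claims.isScan Claims.middle Claims.isWire Claims.isY0
  simp only [h1, h2, h3, h4, h5, h6]

lemma eqNext_congr {t t' d d' : Claims C} (de : Option Bool) (dh : Bits)
    (h1 : t.cx = t'.cx) (h2 : t.cy = t'.cy) (h4 : t.ex.z = t'.ex.z) (h5 : d.cy = d'.cy)
    (h6 : d.cm = d'.cm) : eqNext t d de dh = eqNext t' d' de dh := by
  unfold eqNext Claims.zoneAt Claims.middle Claims.isWire Claims.isY0
  simp only [h1, h2, h4, h5, h6]

lemma lookNext_congr {t t' d d' : Claims C} (dl : Option (Look C)) (dh : Bits)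
    (h1 : t.cx = t'.cx) (h2 : t.cy = t'.cy) (h4 : t.ex.z = t'.ex.z) (h5 : d.cy = d'.cy)
    (h6 : d.cm = d'.cm) : lookNext t d dl dh = lookNext t' d' dl dh := by
  unfold lookNext Claims.zoneAt Claims.middle Claims.isWire Claims.isY0
  simp only [h1, h2, h4, h5, h6]

/-- The first wire row does not look down. -/
lemma next_first {t t' : Claims C} (d d' : Claims C) (dc dc' : Option (Carry C)) (de de' : Option Bool)
    (dl dl' : Option (Look C)) (q q' dh dh' : Bits) (h1 : t.cx = t'.cx) (h2 : t.cy = t'.cy)
    (h4 : t.ex.z = t'.ex.z) (hw : t'.isWire = true) (hk : t'.cy.yhC.val = 0) :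
    carryNext t d dc q = carryNext t' d' dc' q' ∧ eqNext t d de dh = eqNext t' d' de' dh' ∧
      lookNext t d dl dh = lookNext t' d' dl' dh' := by
  have hA := (AF_lt C).1
  have e1 : t.isWire = t'.isWire := by simp only [Claims.isWire, h2]
  have e2 : t.isScan = t'.isScan := by simp only [Claims.isScan, h1]
  have e3 : t.middle = t'.middle := by simp only [Claims.middle, h4]
  have e4 : t.isY0 = t'.isY0 := by simp only [Claims.isY0, h2]
  have e5 : ∀ m, t.zoneAt m = t'.zoneAt m := fun m => by simp only [Claims.zoneAt, h1]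
  have e6 : t'.cy.yhC.val < AF C := by omega
  refine ⟨?_, ?_, ?_⟩
  · simp only [carryNext, e1, e2, e3, h2, hw, if_pos e6, if_true]
  · simp only [eqNext, e1, e3, e4, e5, h2, hw, hk, decide_true, Bool.and_self, if_true]
  · simp only [lookNext, e1, e3, e4, e5, h2, hw, hk, decide_true, Bool.and_self, if_true]

/-- Nothing starts above the first row. -/
lemma next_none {t d : Claims C} (q dh : Bits) (ht : t.isWire = false) (hd : d.isWire = false) :
    carryNext t d none q = none ∧ eqNext t d none dh = none ∧ lookNext t d none dh = none := by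
  refine ⟨?_, ?_, ?_⟩
  · simp [carryNext, ht]
  · simp [eqNext, ht, hd]
  · simp [lookNext, ht, hd]

lemma ebits_refl (j : ℕ) (b : ℕ → Bits) : EBits (decide (j + 1 = 0)) 1 b b := by simp [EBits]

lemma isWire_of_y (t : St C) : (claims L t).isWire = true ↔ IsWire L t.y := by
  simp only [Claims.isWire, Bool.and_eq_true, decide_eq_true_iff, IsWire, claims]
  refine and_congr Iff.rfl ⟨fun h => ?_, fun h => ?_⟩
  · have h' : min (mid L t.y) 3 = 1 := of_decide_eq_true h
    omega
  · exact decide_eq_true (show min (mid L t.y) 3 = 1 by omega)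

lemma wire_M (hL : L₀ C ≤ L) : IsWire L (M L) ∧ hi L (M L) = 0 := by
  obtain ⟨e1, e2, e3⟩ := coord_of (L := L) (a := 0) (c := 1) (e := 0)
    (by have := two_le_M hL; omega) (M_pos L)
  simp only [mul_zero, mul_one, zero_add, add_zero] at e1 e2 e3
  exact ⟨⟨e3, e2⟩, e1⟩

namespace Col

variable {X n : ℕ} {Z : Digits C} {f : ℕ → St C}

lemma lt_H (hc : Col L X Z n f) {j : ℕ} (hj : j ≤ n) : j < H L := lt_of_le_of_lt hj hc.n_lt

lemma u_eq (hL : L₀ C ≤ L) (hc : Col L X Z n f) (τ : ℕ → Bool) (b : ℕ → Bits) {j : ℕ}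
    (h1 : 1 ≤ j) (hj : j ≤ n) : (f j).u = (child L τ b X j Z).u := by
  induction j with
  | zero => omega
  | succ j ih =>
    have hjH := hc.lt_H hj
    obtain ⟨px, py, -⟩ := hc.pos _ hj
    have he := (hc.step j (by omega)).1.2.1
    rw [if_pos rfl] at he
    have hk := counter_child hL τ τ b b Z Z hc.x_lt hjH
    have hp : pred' L (j + 1) = j := by rcases pred_cases hjH with ⟨h, -⟩ | ⟨-, h⟩ <;> omega
    rw [hp] at hk
    refine counterNum_det he.2 hk (px.trans (child_x τ b X _ Z hc.x_lt).symm)
      (py.trans (child_y τ b X _ Z hjH).symm) fun hA => ?_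
    rw [py] at hA
    rcases Nat.eq_zero_or_pos j with rfl | hp'
    · exfalso
      have hA' := A_ge C
      have : hi L (0 + 1) = 0 :=
        Nat.div_eq_of_lt (Nat.one_lt_pow two_ne_zero (by have := two_le_M hL; omega))
      omega
    · exact ih hp' (by omega)

lemma same (hL : L₀ C ≤ L) (hc : Col L X Z n f) (τ : ℕ → Bool) (b : ℕ → Bits) {j : ℕ}
    (h1 : 1 ≤ j) (hj : j ≤ n) : SameShell (f j) (child L τ b X j Z) := by
  obtain ⟨px, py, pz⟩ := hc.pos _ hj
  exact ⟨px.trans (child_x τ b X j Z hc.x_lt).symm, py.trans (child_y τ b X j Z (hc.lt_H hj)).symm,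
    pz, hc.u_eq hL τ b h1 hj⟩

/-- The columns of two children above each other. -/
lemma kid (hL : L₀ C ≤ L) (hc : Col L X Z n f) (τ : ℕ → Bool) (b : ℕ → Bits) {j : ℕ}
    (hj : j + 1 ≤ n) :
    let t := claims L (child L τ b X (j + 1) Z)
    let d := claims L (child L τ b X j Z)
    (child L τ b X (j + 1) Z).fin.carry =
        carryNext t d (child L τ b X j Z).fin.carry (child L τ b X (j + 1) Z).fin.h ∧
      (child L τ b X (j + 1) Z).fin.eq =
        eqNext t d (child L τ b X j Z).fin.eq (child L τ b X j Z).fin.h ∧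
      (child L τ b X (j + 1) Z).fin.look =
        lookNext t d (child L τ b X j Z).fin.look (child L τ b X j Z).fin.h := by
  have hjH := hc.lt_H hj
  have hp : pred' L (j + 1) = j := by rcases pred_cases hjH with ⟨h, -⟩ | ⟨-, h⟩ <;> omega
  have h1 := childV_carry (τ := τ) (Z := Z) hL hc.x_lt hjH (ebits_refl j b)
  have h2 := childV_eq (τ := τ) (Z := Z) hL hc.x_lt hjH (ebits_refl j b)
  have h3 := childV_look (τ := τ) (Z := Z) hL hc.x_lt hjH (ebits_refl j b)
  rw [hp] at h1 h2 h3
  exact ⟨h1, h2, h3⟩

lemma carry_isSome (hL : L₀ C ≤ L) (hc : Col L X Z n f) (τ : ℕ → Bool) (b : ℕ → Bits) {j : ℕ}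
    (h1 : M L ≤ j) (hj : j ≤ n) :
    (f j).fin.carry.isSome = (child L τ b X j Z).fin.carry.isSome := by
  induction j with
  | zero => exact absurd h1 (by have := M_pos L; omega)
  | succ j ih =>
    rw [(hc.step j (by omega)).2.carry rfl, (hc.kid hL τ b hj).1]
    obtain ⟨a1, a2, a3, a4, -⟩ := (hc.same hL τ b (by omega) hj).claims_eq (L := L)
    by_cases hM : M L ≤ j
    · exact isSome_carryNext _ _ a1 a2 a3 a4
        ((hc.same hL τ b (by have := M_pos L; omega) (by omega)).claims_eq (L := L)).2.2.1
        (ih hM (by omega))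
    · obtain ⟨w1, w2⟩ := wire_M hL
      refine congrArg Option.isSome (next_first _ _ _ _ none none none none _ _ (fun _ => false)
        (fun _ => false) a1 a2 a4 ?_ ?_).1
      · rw [claims_wire τ b X _ Z (hc.lt_H hj), show j + 1 = M L by omega]
        exact w1
      · rw [claims_yhC τ b X _ Z (hc.lt_H hj), show j + 1 = M L by omega, w2, Nat.zero_min]

lemma live_eq (hL : L₀ C ≤ L) (hc : Col L X Z n f) {j : ℕ} (h1 : 1 ≤ j) (hj : j ≤ n)
    (hs : IsCol L X 3 ∧ lo L X = 0) (hm : MidDigits Z) :
    (f j).fin.live = decide (IsLive C L j) := by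
  have hjH := hc.lt_H hj
  have hp := hc.pfacts j h1 hj
  have hp' := childP hL (fun _ => false) (fun _ _ => false) Z hc.x_lt hjH
  obtain ⟨a1, a2, -, a4, -⟩ :=
    (hc.same hL (fun _ => false) (fun _ _ => false) h1 hj).claims_eq (L := L)
  rw [← child_live (fun _ => false) (fun _ _ => false) X j Z hjH]
  set k := child L (fun _ => false) (fun _ _ => false) X j Z with hk
  have ew : (claims L (f j)).isWire = (claims L k).isWire := by simp only [Claims.isWire, a2]
  cases hw : (claims L k).isWire
  · have b1 : (f j).fin.live = false := Bool.eq_false_iff.2 fun h => by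
      have h2 : (claims L (f j)).isWire = true := hp.live_wire h
      rw [ew, hw] at h2
      exact Bool.noConfusion h2
    have b2 : k.fin.live = false := Bool.eq_false_iff.2 fun h =>
      Bool.noConfusion (hw.symm.trans (hp'.live_wire h))
    rw [b1, b2]
  · rcases Nat.lt_or_ge (claims L k).cy.yhC.val (AF C) with hl | hl
    · exact (hp.live_low (ew.trans hw) (show (claims L (f j)).cy.yhC.val < AF C by
        rw [a2]; exact hl)).trans (hp'.live_low hw hl).symm
    · have hsc : (claims L k).isScan = true := (claims_scan _ _ X j Z hc.x_lt).2 hs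
      have hmid : (claims L k).middle = true := (claims_middle _ _ X j Z).2 hm
      refine (hp.live_scan (ew.trans hw)
        (show (claims L (f j)).isScan = true by simp only [Claims.isScan, a1]; exact hsc)
        (show (claims L (f j)).middle = true by simp only [Claims.middle, a4]; exact hmid)
        (show AF C ≤ (claims L (f j)).cy.yhC.val by rw [a2]; exact hl)).trans
        (Eq.trans ?_ (hp'.live_scan hw hsc hmid hl).symm)
      exact hc.carry_isSome hL (fun _ => false) (fun _ _ => false) (M_le_of_wire ((claims_wire _ _ X j Z hjH).1 hw)) hj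

end Col

theorem columnStatement (C : Cfg) : ColumnStatement C := fun _ hL _ _ _ _ hc _ h1 hj =>
  ⟨hc.same hL _ _ h1 hj, fun hM => hc.carry_isSome hL _ _ hM hj,
    fun hs hm => hc.live_eq hL h1 hj hs hm⟩

theorem columnsStatement (C : Cfg) : ColumnsStatement C := by
  intro L hL X Z n f hc τ b hh j
  induction j with
  | zero =>
    intro hj h0
    obtain ⟨e1, e2, e3⟩ := h0.resolve_left (by have := M_pos L; omega)
    have hM : ¬ M L ≤ 0 := by have := M_pos L; omega
    have h := hc.lt_H hj
    rw [e1, e2, e3, child_carry τ b X 0 Z hc.x_lt h, if_neg fun h => hM h.2.2.1,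
      child_eqf τ b X 0 Z hc.x_lt h, if_neg fun h => hM h.2.1,
      child_look τ b X 0 Z hc.x_lt h, if_neg fun h => hM h.2.1]
    simp
  | succ j ih =>
    intro hj h0
    have hE := (hc.step j (by omega)).2
    obtain ⟨k1, k2, k3⟩ := hc.kid hL τ b hj
    rw [hE.carry rfl, hE.eq rfl, hE.look rfl, k1, k2, k3]
    obtain ⟨a1, a2, a3, a4, a5⟩ := (hc.same hL τ b (by omega) hj).claims_eq (L := L)
    have hjH := hc.lt_H hj
    by_cases hcase : M L ≤ j ∨ (f 0).fin.carry = none ∧ (f 0).fin.eq = none ∧ (f 0).fin.look = none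
    · obtain ⟨i1, i2, i3⟩ := ih (by omega) hcase
      simp only [i1, i2, i3, hh (j + 1) (by omega) hj]
      rcases Nat.eq_zero_or_pos j with rfl | hp
      · obtain ⟨e1, e2, e3⟩ := hcase.resolve_left (by have := M_pos L; omega)
        rw [← i1, ← i2, ← i3, e1, e2, e3]
        have h1 : ¬ IsWire L (0 + 1) := fun h => by
          have := M_le_of_wire h
          have := two_le_M hL
          omega
        have h2 : ¬ IsWire L 0 := (rows_zero (C := C) hL).1
        obtain ⟨-, py1, -⟩ := hc.pos (0 + 1) hj
        obtain ⟨-, py0, -⟩ := hc.pos 0 (Nat.zero_le _)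
        have w : ∀ (t : St C) (y : ℕ), t.y = y → ¬ IsWire L y → (claims L t).isWire = false :=
          fun t y ht hy => Bool.eq_false_iff.2 fun h => hy (ht ▸ (isWire_of_y t).1 h)
        obtain ⟨p1, p2, p3⟩ := next_none (child L τ b X (0 + 1) Z).fin.h (f 0).fin.h
          (w _ _ py1 h1) (w _ _ py0 h2)
        obtain ⟨q1, q2, q3⟩ := next_none (child L τ b X (0 + 1) Z).fin.h
          (child L τ b X 0 Z).fin.h (w _ _ (child_y τ b X _ Z hjH) h1)
          (w _ _ (child_y τ b X 0 Z (H_pos L)) h2)
        exact ⟨p1.trans q1.symm, p2.trans q2.symm, p3.trans q3.symm⟩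
      · obtain ⟨b1, b2, b3, -, -⟩ := (hc.same hL τ b hp (by omega)).claims_eq (L := L)
        rw [hh j hp (by omega)]
        exact ⟨carryNext_congr _ _ a1 a2 a3 a4 a5 b3, eqNext_congr _ _ a1 a2 a4 b2 b3,
          lookNext_congr _ _ a1 a2 a4 b2 b3⟩
    · have hM : j + 1 = M L := by
        rcases h0 with h | h
        · have : ¬ M L ≤ j := fun h' => hcase (Or.inl h')
          omega
        · exact absurd (Or.inr h) hcase
      obtain ⟨w1, w2⟩ := wire_M hL
      refine next_first _ _ _ _ _ _ _ _ _ _ _ _ a1 a2 a4 ?_ ?_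
      · rw [claims_wire τ b X _ Z hjH, hM]
        exact w1
      · rw [claims_yhC τ b X _ Z hjH, hM, w2, Nat.zero_min]

end Vale.Agent.P193.W4.Common
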