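import Vale.Agent.P193.W4.Common.Desub.Defs
import Vale.Agent.P193.W4.Common.EndOK

/-!
P193, module W4.A (common layer): reading states from the shown bits.
-/

noncomputable section

namespace Vale.Agent.P193.W4.Common

open Vale.Agent.P193.W4.Common.Num

variable {C : Cfg}

namespace Decode

variable (L : ℕ) (b : ℕ → Bits) (g : Guest) (s : Cell C)

lemma numOf_lt (τ : ℕ) : numOf C L b g τ < M (L + 1) := Nat.ofBits_lt_two_pow _

lemma three_lt {a c e : ℕ} (ha : a < M L) (hc : c < M L) (he : e < M L) :
    a + M L * c + M L ^ 2 * e < H L := by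
  have h1 : M L * (c + 1) ≤ M L * M L := Nat.mul_le_mul_left _ hc
  have h2 : M L ^ 2 * (e + 1) ≤ M L ^ 2 * M L := Nat.mul_le_mul_left _ he
  rw [Nat.mul_add, mul_one] at h1 h2
  rw [← sq] at h1
  rw [show H L = M L ^ 2 * M L by rw [H, ← pow_succ]]
  omega

lemma bounded : InBounds (L + 1) (decodeSt L b g s) :=
  ⟨three_lt _ (numOf_lt L b g _) (numOf_lt L b g _) (numOf_lt L b g _),
    three_lt _ (numOf_lt L b g _) (numOf_lt L b g _) (numOf_lt L b g _), numOf_lt L b g _,
    fun _ => numOf_lt L b g _⟩

lemma num_decode (τ : ℕ) :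
    num (L + 1) (decodeSt L b g s) τ = if τ < C.k + 9 then numOf C L b g τ else 0 := by
  obtain ⟨x0, x1, x2⟩ := parts_of_eq (L := L + 1) (h := numOf C L b g 2) (numOf_lt (C := C) L b g 0)
    (numOf_lt (C := C) L b g 1)
  obtain ⟨y0, y1, y2⟩ := parts_of_eq (L := L + 1) (h := numOf C L b g 5) (numOf_lt (C := C) L b g 3)
    (numOf_lt (C := C) L b g 4)
  match τ with
  | 0 => rw [if_pos (by omega)]; exact x0
  | 1 => rw [if_pos (by omega)]; exact x1
  | 2 => rw [if_pos (by omega)]; exact x2
  | 3 => rw [if_pos (by omega)]; exact y0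
  | 4 => rw [if_pos (by omega)]; exact y1
  | 5 => rw [if_pos (by omega)]; exact y2
  | 6 => rw [if_pos (by omega)]; rfl
  | n + 7 =>
    show (if hn : n < C.k + 2 then numOf C L b g (7 + n) else 0) = _
    by_cases hn : n < C.k + 2
    · rw [dif_pos hn, if_pos (by omega), Nat.add_comm]
    · rw [dif_neg hn, if_neg (by omega)]

/-- The number rows are those of the decoded state. -/
lemma testBit_num {g : Guest}
    (hspare : ∀ i ≤ L, ∀ τ, C.k + 9 ≤ τ → τ < T C → b (A C + T C * i + τ) g = false)
    {i τ : ℕ} (hi : i ≤ L) (hτ : τ < T C) :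
    b (A C + T C * i + τ) g = (num (L + 1) (decodeSt L b g s) τ).testBit i := by
  rw [num_decode]
  by_cases h : τ < C.k + 9
  · rw [if_pos h, numOf, Nat.testBit_ofBits, dif_pos (Nat.lt_succ_of_le hi)]
  · rw [if_neg h, hspare i hi τ (by omega) hτ, Nat.zero_testBit]

end Decode

/-- The rows below `A` determine the finite data. -/
lemma finBits_inj {s t : Cell C} (h : ∀ k < A C, finBits s k = finBits t k) : s = t := by
  have hA := A_ge C
  have hF := AF_lt C
  unfold restRow at hF
  have hv : s.1.v = t.1.v := by simpa [finBits] using h 0 (by omega)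
  have hh : s.1.h = t.1.h := funext fun g => by
    have hg := (gidx g).isLt
    have := h ((gidx g).val + 1) (by omega)
    simp only [finBits, Nat.succ_ne_zero, if_false, show (gidx g).val + 1 < 33 by omega,
      if_true] at this
    have e : (⟨((gidx g).val + 1 - 1) % 32, Nat.mod_lt _ (by norm_num)⟩ : Fin 32) = gidx g :=
      Fin.ext (show ((gidx g).val + 1 - 1) % 32 = (gidx g).val by omega)
    rwa [e, Equiv.symm_apply_apply] at this
  have hvb : s.1.vb = t.1.vb := funext fun g => by
    have hg := (gidx g).isLt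
    have := h ((gidx g).val + 33) (by omega)
    simp only [finBits, show (gidx g).val + 33 ≠ 0 by omega, if_false,
      show ¬ (gidx g).val + 33 < 33 by omega, show (gidx g).val + 33 < 65 by omega, if_true] at this
    have e : (⟨((gidx g).val + 33 - 33) % 32, Nat.mod_lt _ (by norm_num)⟩ : Fin 32) = gidx g :=
      Fin.ext (show ((gidx g).val + 33 - 33) % 32 = (gidx g).val by omega)
    rwa [e, Equiv.symm_apply_apply] at this
  have heq : s.1.eq = t.1.eq := by
    have h9 := h 65 (by omega)
    have h10 := h 66 (by omega)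
    simp [finBits] at h9 h10
    revert h9 h10
    rcases s.1.eq with _ | _ | _ <;> rcases t.1.eq with _ | _ | _ <;> simp
  have hrest : s.1.rest = t.1.rest := by
    refine code_injective (Nat.eq_of_testBit_eq fun n => ?_)
    rcases Nat.lt_or_ge n (AF C - restRow) with hn | hn
    · unfold restRow at hn
      have := h (n + 67) (by omega)
      simp only [finBits, show n + 67 ≠ 0 by omega, if_false, show ¬ n + 67 < 33 by omega,
        show ¬ n + 67 < 65 by omega, show n + 67 ≠ 65 by omega, show n + 67 ≠ 66 by omega,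
        show n + 67 < AF C by omega, if_true, restRow, Nat.add_sub_cancel] at this
      exact this
    · have hle := Nat.pow_le_pow_right (show 0 < 2 by norm_num) hn
      rw [Nat.testBit_lt_two_pow ((code_rest_lt s.1).trans_le hle),
        Nat.testBit_lt_two_pow ((code_rest_lt t.1).trans_le hle)]
  have hcl : s.2 = t.2 := by
    refine code_injective (Nat.eq_of_testBit_eq fun n => ?_)
    rcases Nat.lt_or_ge n (A C - 2 - AF C) with hn | hn
    · have := h (n + AF C) (by omega)
      simp only [finBits, show n + AF C ≠ 0 by omega, if_false, show ¬ n + AF C < 33 by omega,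
        show ¬ n + AF C < 65 by omega, show n + AF C ≠ 65 by omega, show n + AF C ≠ 66 by omega,
        show ¬ n + AF C < AF C by omega, show n + AF C < A C - 2 by omega, if_true,
        Nat.add_sub_cancel] at this
      exact this
    · have hle := Nat.pow_le_pow_right (show 0 < 2 by norm_num) hn
      rw [Nat.testBit_lt_two_pow ((code_claims_lt s.2).trans_le hle),
        Nat.testBit_lt_two_pow ((code_claims_lt t.2).trans_le hle)]
  obtain ⟨⟨sh, svb, sc, se, sv, sl, slv, sp, son⟩, scl⟩ := s
  obtain ⟨⟨th, tvb, tc, te, tv, tl, tlv, tp, ton⟩, tcl⟩ := t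
  simp only [Fin'.rest, Prod.mk.injEq] at hrest hv hh hvb heq hcl
  obtain ⟨rfl, rfl, rfl, rfl, rfl⟩ := hrest
  subst hv hh hvb heq hcl
  rfl

/-- The claim rows of finite data. -/
lemma finBits_claim (s : Cell C) {n : ℕ} (hn : n < A C - 2 - AF C) :
    finBits s (AF C + n) = (code s.2).testBit n := by
  have hF := AF_lt C
  unfold restRow at hF
  rw [finBits, if_neg (by omega), if_neg (by omega), if_neg (by omega),
    if_neg (by omega), if_neg (by omega), if_neg (by omega), if_pos (by omega),
    Nat.add_sub_cancel_left]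

/-- Bounded states with the same bits are equal. -/
lemma enc_inj {L' : ℕ} {t t' : St C} (ht : InBounds L' t) (ht' : InBounds L' t')
    (h : ∀ k, enc L' t k = enc L' t' k) : t = t' := by
  have hc : (t.fin, claims L' t) = (t'.fin, claims L' t') := finBits_inj fun k hk => by
    have := h k
    rwa [enc, enc, if_pos hk, if_pos hk] at this
  have hn : ∀ τ, τ < T C → num L' t τ = num L' t' τ := fun τ hτ => Nat.eq_of_testBit_eq fun i => by
    rcases Nat.lt_or_ge i L' with hi | hi
    · have := h (A C + T C * i + τ)
      have e1 : (A C + T C * i + τ - A C) / T C = i := by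
        rw [show A C + T C * i + τ - A C = τ + T C * i by omega,
          Nat.add_mul_div_left _ _ (T_pos C), Nat.div_eq_of_lt hτ, Nat.zero_add]
      have e2 : (A C + T C * i + τ - A C) % T C = τ := by
        rw [show A C + T C * i + τ - A C = τ + T C * i by omega, Nat.add_mul_mod_self_left,
          Nat.mod_eq_of_lt hτ]
      rw [enc, enc, if_neg (by omega), if_neg (by omega), e1, e2,
        decide_eq_true hi, Bool.true_and, Bool.true_and] at this
      exact this
    · have hle := Nat.pow_le_pow_right (show 0 < 2 by norm_num) hi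
      rw [Nat.testBit_lt_two_pow ((Scanning.num_lt ht τ).trans_le hle),
        Nat.testBit_lt_two_pow ((Scanning.num_lt ht' τ).trans_le hle)]
  have hT := T_ge C
  obtain ⟨hf, hcl⟩ := Prod.mk.inj hc
  have hx : t.x = t'.x :=
    (eq_iff_parts L' _ _).2 ⟨hn 0 (by omega), hn 1 (by omega), hn 2 (by omega)⟩
  have hy : t.y = t'.y :=
    (eq_iff_parts L' _ _).2 ⟨hn 3 (by omega), hn 4 (by omega), hn 5 (by omega)⟩
  have hu : t.u = t'.u := hn 6 (by omega)
  have hw : t.w = t'.w := funext fun r => by
    have := r.isLt
    have e := hn (7 + r.val) (by omega)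
    rwa [Scanning.num_track, Scanning.num_track] at e
  have hz : t.z = t'.z := congrArg (fun c : Claims C => c.ex.z) hcl
  obtain ⟨_, _, _, _, _, _⟩ := t
  obtain ⟨_, _, _, _, _, _⟩ := t'
  simp only at hf hx hy hu hw hz
  subst hf hx hy hu hw hz
  rfl

end Vale.Agent.P193.W4.Common
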