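import Vale.Agent.P193.W4.Common.Desub.Slices
import Vale.Agent.P193.W4.Common.Desub.Decode

/-!
P193, module W4.A (common layer): a corner shows a window of parents accepted by the table, whose
own tile has the claimed numbers, correctly related to the tiles behind it.
-/

noncomputable section

namespace Vale.Agent.P193.W4.Common

open Vale.Agent.P193.W4.Common.Num

variable {C : Cfg} {L : ℕ} {c : Z5 → St C} {o : Z5}

/-- The tests on claims fixed by the shell. -/
lemma SameShell.tests {t t' : St C} (h : SameShell t t') :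
    (claims L t).isWire = (claims L t').isWire ∧ (claims L t).middle = (claims L t').middle ∧
      (claims L t).bundle = (claims L t').bundle ∧ (claims L t).zone = (claims L t').zone := by
  obtain ⟨hx, hy, hm, hz, -⟩ := h.claims_eq (L := L)
  simp [Claims.isWire, Claims.middle, Claims.bundle, Claims.zone, Claims.zoneAt, hx, hy, hz]

/-- A shell is that of any child at its position. -/
lemma SameShell.of_shell {t : St C} {X Y : ℕ} {Z : Digits C} (τ : ℕ → Bool) (b : ℕ → Bits)
    (hX : X < H L) (hY : Y < H L) (h : SameShell t (shell C L X Y Z)) :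
    SameShell t (child L τ b X Y Z) := by
  simpa only [shell, SameShell, child_x _ _ _ _ _ hX, child_y _ _ _ _ _ hY, child_z,
    child_u _ _ _ _ _ hX hY] using h

/-- The colour tested on a zone column at a constant row. -/
lemma child_claims_q (τ : ℕ → Bool) (b : ℕ → Bits) (Z : Digits C) {X Y k : ℕ} (hX : X < H L)
    (hY : Y < H L) (hk : hi L Y = k) (hkA : k < A C) (g : Guest) :
    (claims L (child L τ b X Y Z)).cm.q g = (lo L X).testBit (32 * k + (gidx g).val + 2) := by
  show (decide (min (hi L (child L τ b X Y Z).y) (YB C) < A C) &&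
    (lo L (child L τ b X Y Z).x).testBit
      (32 * min (hi L (child L τ b X Y Z).y) (YB C) + (gidx g).val + 2)) = _
  have hYB := A_lt_YB C
  rw [child_x τ b X Y Z hX, child_y τ b X Y Z hY, hk, Nat.min_eq_left (by omega : k ≤ YB C),
    decide_eq_true hkA, Bool.true_and]

/-- In a window made of children the folded data of the claims are the stored ones. -/
lemma Shape.claims_fold {s : Sig C} (h : Shape s) (g : Guest) :
    (s g).2.ex.pf = (s g).1.pf ∧ (s g).2.ex.wOn = (s g).1.wOn := by
  obtain ⟨L, τ, b, X, Y, Z, -, -, -, rfl⟩ := h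
  exact ⟨rfl, rfl⟩

namespace Corner

/-- The window above a tile of the slice. -/
lemma above (hc : Corner L c o) {i j : ℕ} (h0 : 1 ≤ i) (hi' : i ≤ 7 * M L)
    (hj : j + 1 ≤ cornerH C L) :
    AcceptPair (cell L (c (cornerAt o i (j + 1)))) (cell L (c (cornerAt o i j))) ∧
      SpareOK (cell L (c (cornerAt o i (j + 1)))) ∧
      ((claims L (c (cornerAt o i (j + 1)))).zone = true →
        (c (cornerAt o i (j + 1))).fin.v = table C (lo L (c (cornerAt o i (j + 1))).x)) := by
  have h := hc.valid i (j + 1) h0 hi' (by omega) hj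
  have e : cornerAt o i (j + 1) - Pi.single 1 1 = cornerAt o i j := by
    funext a
    simp only [cornerAt, Pi.sub_apply, Pi.add_apply]
    fin_cases a <;> simp; ring
  obtain ⟨hp, hs⟩ := h.1.2.2.2.1
  have h1 := hp self rfl
  have h2 := hs self
  have h3 := h.2 self
  simp only [sig, quadAt_self, quadAt_back, e] at h1 h2 h3
  exact ⟨h1, h2, h3⟩

/-- The crossing of row `k` satisfies the checks on spare and constant rows. -/
lemma spare (hcol : ColumnStatement C) (hsl : SliceStatement C) (hL : L₀ C ≤ L)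
    (hc : Corner L c o) {k : ℕ} (hk : k ≤ lastK C L) :
    (A C ≤ k → C.k + 9 ≤ k % T C → ∀ g, cornerBits L c o k g = false) ∧
      (k = A C - 1 → ∀ g, cornerBits L c o k g = true) := by
  obtain ⟨hx1, hx7⟩ := crossX_range hL hk
  obtain ⟨hw, hk'⟩ := crossY_spec hL k
  obtain ⟨hbd, hlo⟩ := crossX_spec hL hk
  have hy : crossY L k ≤ cornerH C L := crossY_le (by omega)
  have hy1 := one_le_crossY L k
  obtain ⟨hcl, -⟩ := hsl L hL c o hc _ hx1 hx7
  obtain ⟨hsh, -, -⟩ := hcol L hL _ _ _ _ hcl _ hy1 hy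
  obtain ⟨hxl, hyl, hml, -, -⟩ := hsh.claims_eq (L := L)
  obtain ⟨t1, t2, t3, -⟩ := hsh.tests (L := L)
  obtain ⟨-, hs, -⟩ := hc.above (j := crossY L k - 1) hx1 hx7 (by omega)
  rw [Nat.sub_add_cancel hy1] at hs
  have hX := (slice_lt hL hx7).1
  have hY : crossY L k < H L := hy.trans_lt (cornerH_lt hL).1
  have hwc : (cell L (c (cornerAt o (crossX L k) (crossY L k)))).2.isWire = true :=
    t1.trans ((claims_wire _ _ _ _ _ hY).2 hw)
  have hyC : (cell L (c (cornerAt o (crossX L k) (crossY L k)))).2.cy.yhC.val = min k (YB C) :=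
    ((congrArg (fun y : YClaims C => y.yhC.val) hyl).trans (claims_yhC _ _ _ _ _ hY)).trans
      (by rw [hk'])
  have hbits : cornerBits L c o k = (c (cornerAt o (crossX L k) (crossY L k))).fin.h := by
    rw [cornerBits, if_pos hk]
  have hYB := A_lt_YB C
  refine ⟨fun hA h7 g => ?_, fun hA g => ?_⟩
  · rw [hbits]
    refine hs.1 hwc (by omega) ?_ g
    show _ ≤ (claims L (c (cornerAt o (crossX L k) (crossY L k)))).cy.yhMod.val
    rw [hyl]
    show _ ≤ (claims L (child L _ _ _ _ _)).cy.yhMod.val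
    rw [claims_yhMod _ _ _ _ _ hY, hk']
    exact h7
  · rw [hbits]
    refine hs.2 hwc (by omega) ?_ ?_ ?_ g
    · exact t2.trans ((claims_middle _ _ _ _ _).2 middle_midZ)
    · exact t3.trans ((claims_bundle _ _ _ _ _ hX).2 hbd)
    · show (claims L (c (cornerAt o (crossX L k) (crossY L k)))).cm.diag = true
      rw [hml]
      exact (claims_diag _ _ _ _ _ hX hY).2 (by rw [hlo, hk'])

end Corner

open Corner in
/-- A corner shows an accepted window of parents. -/
theorem cornerStatement_of (hcol : ColumnStatement C) (hcols : ColumnsStatement C)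
    (hsl : SliceStatement C) : CornerStatement C := by
  intro L hL c o hc
  obtain ⟨h50, hbK, hbB, hbY⟩ := bounds_M hL
  have hM := M_pos L
  have hAge := A_ge C
  have hF := AF_lt C
  unfold restRow at hF
  have hB : B C = 32 * A C + 2 := rfl
  have hBL : B C ≤ L := by have := (le_L₀ C).trans hL; omega
  set b := cornerBits L c o with hb
  -- the slice
  have sh : ∀ i j, 1 ≤ i → i ≤ 7 * M L → 1 ≤ j → j ≤ cornerH C L →
      SameShell (c (cornerAt o i j)) (child L (table C) b i j (midZ C)) := fun i j h1 h2 h3 h4 =>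
    (hcol L hL _ _ _ _ (hsl L hL c o hc i h1 h2).1 j h3 h4).1.of_shell _ _ (slice_lt hL h2).1
      (h4.trans_lt (cornerH_lt hL).1)
  have cols : ∀ i j, 1 ≤ i → i ≤ 7 * M L → M L ≤ j → j ≤ cornerH C L →
      (c (cornerAt o i j)).fin.carry = (child L (table C) b i j (midZ C)).fin.carry ∧
        (c (cornerAt o i j)).fin.eq = (child L (table C) b i j (midZ C)).fin.eq ∧
        (c (cornerAt o i j)).fin.look = (child L (table C) b i j (midZ C)).fin.look :=
    fun i j h1 h2 h3 h4 =>
      hcols L hL _ _ _ _ (hsl L hL c o hc i h1 h2).1 (table C) b (hsl L hL c o hc i h1 h2).2 j h4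
        (Or.inl h3)
  have hh : ∀ i j, 1 ≤ i → i ≤ 7 * M L → 1 ≤ j → j ≤ cornerH C L → IsLive C L j →
      (c (cornerAt o i j)).fin.h = b (hi L j) := fun i j h1 h2 h3 h4 h5 =>
    ((hsl L hL c o hc i h1 h2).2 j h3 h4).trans (slice_h hL _ _ h1 h2 h4 h5)
  -- the zone column coding the finite rows
  set xl := Nat.ofBits fun n : Fin (B C) => decide (n.val = 1) || (decide (2 ≤ n.val) &&
    b ((n.val - 2) / 32) (gidx.symm ⟨(n.val - 2) % 32, Nat.mod_lt _ (by norm_num)⟩)) with hxl
  have hbit : ∀ k < A C, ∀ g : Guest, xl.testBit (32 * k + (gidx g).val + 2) = b k g := by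
    intro k hk g
    have hg := (gidx g).isLt
    have e : gidx.symm ⟨(32 * k + (gidx g).val) % 32, Nat.mod_lt _ (by norm_num)⟩ = g := by
      rw [Equiv.symm_apply_eq]
      exact Fin.ext (show (32 * k + (gidx g).val) % 32 = (gidx g).val by omega)
    rw [hxl, Nat.testBit_ofBits, dif_pos (by omega)]
    simp only [show ¬ 32 * k + (gidx g).val + 2 = 1 by omega,
      show 2 ≤ 32 * k + (gidx g).val + 2 by omega,
      decide_false, decide_true, Bool.false_or, Bool.true_and, Nat.add_sub_cancel, e,
      show (32 * k + (gidx g).val) / 32 = k by omega]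
  have hKA : A C - 1 ≤ lastK C L := by unfold lastK; omega
  have htop : 2 ^ (B C - 1) ≤ xl := by
    refine Nat.ge_two_pow_of_testBit ?_
    rw [show B C - 1 = 32 * (A C - 1) + (gidx (gidx.symm 31)).val + 2 by simp; omega,
      hbit _ (by omega)]
    exact (spare hcol hsl hL hc hKA).2 rfl _
  have heven : xl % 4 = 2 := by
    have h0 : xl.testBit 0 = false := by
      rw [hxl, Nat.testBit_ofBits, dif_pos (by omega)]
      simp
    have h1 : xl.testBit 1 = true := by
      rw [hxl, Nat.testBit_ofBits, dif_pos (by omega)]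
      simp
    rw [Nat.testBit_zero, decide_eq_false_iff_not] at h0
    rw [Nat.testBit_succ, Nat.testBit_zero, decide_eq_true_iff] at h1
    omega
  obtain ⟨hz, hlo, hi0, hi7⟩ := zone_pos hL (m := 4) (by norm_num) (by norm_num) heven htop
    (Nat.ofBits_lt_two_pow _)
  set i := 4 * M L + xl with hidef
  obtain ⟨hyle, hMy, hr1, hr2, hhi⟩ := after_wire hL hKA
  obtain ⟨hw, hwk⟩ := crossY_spec hL (A C - 1)
  set y := crossY L (A C - 1) with hy
  have hX := (slice_lt hL hi7).1
  have hY : y < H L := by have := (cornerH_lt hL).1; omega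
  have hY' : y + 1 < H L := by have := (cornerH_lt hL).1; omega
  obtain ⟨hacc, -, hv⟩ := hc.above hi0 hi7 hyle
  obtain ⟨-, eD, -⟩ := cols i y hi0 hi7 hMy (by omega)
  obtain ⟨-, eT, -⟩ := cols i (y + 1) hi0 hi7 (by omega) hyle
  have sD := sh i y hi0 hi7 (by omega) (by omega)
  have sT := sh i (y + 1) hi0 hi7 (by omega) hyle
  obtain ⟨dW, -, -, -⟩ := sD.tests (L := L)
  obtain ⟨-, -, -, tZ⟩ := sT.tests (L := L)
  have hlive : IsLive C L y := ⟨hw, by omega⟩
  have hTv : (c (cornerAt o i (y + 1))).fin.v = true := by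
    refine hacc.2.1 ?_ ?_ ?_ ?_
    · exact dW.trans ((claims_wire _ _ _ _ _ hY).2 hw)
    · show (c (cornerAt o i y)).fin.eq = some true
      rw [eD, child_eqf _ _ _ _ _ hX hY, if_pos ⟨hz, hMy, hr1.le, middle_midZ⟩, hr1]
      refine congrArg some (decide_eq_true fun k hk => ?_)
      simp only [zoneMatch, decide_eq_true_iff, hlo]
      exact fun g => (hbit k (by omega) g).symm
    · show (c (cornerAt o i (y + 1))).fin.eq = none
      rw [eT, child_eqf _ _ _ _ _ hX hY', if_neg fun h => absurd h.2.2.1 (by omega)]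
    · show (c (cornerAt o i y)).fin.h = (claims L (c (cornerAt o i y))).cm.q
      rw [hh i y hi0 hi7 (by omega) (by omega) hlive, hwk, (sD.claims_eq (L := L)).2.2.1]
      funext g
      rw [child_claims_q _ _ _ hX hY hwk (by omega), hlo, hbit _ (by omega)]
  have hzc : (claims L (c (cornerAt o i (y + 1)))).zone = true :=
    tZ.trans ((claims_zone _ _ _ _ _ hX hY').2 (Or.inl ⟨hz, hhi⟩))
  have htab : table C xl = true := by
    have := hv hzc
    rwa [sT.1, child_x _ _ _ _ _ hX, hlo, hTv, eq_comm] at this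
  simp only [table, decide_eq_true_iff] at htab
  obtain ⟨s, hs, hin⟩ := htab
  have hfin : ∀ k < A C, ∀ g, finBits (s g) k = b k g := fun k hk g =>
    (hin k hk g).trans (hbit k hk g)
  have hspare : ∀ g, ∀ i ≤ L, ∀ τ, C.k + 9 ≤ τ → τ < T C → b (A C + T C * i + τ) g = false := by
    intro g i' hi' τ hτ hτ'
    have h1 : T C * i' ≤ T C * L := Nat.mul_le_mul_left _ hi'
    refine (spare hcol hsl hL hc (by unfold lastK; omega)).1 (by omega) ?_ g
    obtain ⟨q, hq⟩ := T_dvd_A C
    rw [hq, show T C * q + T C * i' + τ = τ + T C * (q + i') by ring, Nat.add_mul_mod_self_left,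
      Nat.mod_eq_of_lt hτ']
    exact hτ
  set q : Win (St C) := fun g => decodeSt L b g (s g) with hq
  have hnum : ∀ i ≤ L, ∀ τ < T C, ∀ g,
      b (A C + T C * i + τ) g = (num (L + 1) (q g) τ).testBit i := fun i hi τ hτ g =>
    Decode.testBit_num L b _ (hspare g) hi hτ
  -- the end of the scanning column
  have hreads : Scanning.Reads C L b (Scanning.numsOf (L + 1) q) (code (s self).2) :=
    ⟨fun n hn => by rw [← hfin _ (by omega) _, finBits_claim _ hn], hnum⟩
  have hend : (scan C L b (lastK C L)).endOK := by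
    set yT := crossY L (lastK C L + 1) with hyT
    obtain ⟨hwT, hkT⟩ := crossY_spec hL (lastK C L + 1)
    rw [← hyT] at hwT hkT
    have hyTle : yT ≤ cornerH C L := crossY_le le_rfl
    obtain ⟨yD, hyD⟩ : ∃ yD, yT = yD + 1 := ⟨yT - 1, by have := one_le_crossY L (lastK C L + 1); omega⟩
    obtain ⟨-, -, hr, -⟩ := rows_succ hL yD
    rw [← hyD] at hr
    obtain ⟨-, erT, -, hrD⟩ := hr hwT
    obtain ⟨hMD, ekD⟩ := hrD (by omega)
    rw [hkT] at erT ekD
    have h30 : 1 ≤ 3 * M L := by omega
    have h37 : 3 * M L ≤ 7 * M L := by omega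
    have hX3 := (slice_lt hL h37).1
    have hYD : yD < H L := by have := (cornerH_lt hL).1; omega
    have hYT : yD + 1 < H L := by have := (cornerH_lt hL).1; omega
    have hcol3 : IsCol L (3 * M L) 3 ∧ lo L (3 * M L) = 0 :=
      (col0_iff (by have := nine_le_M hL; omega)).2 (Nat.mul_comm _ _)
    obtain ⟨hacc, -, -⟩ := hc.above (j := yD) h30 h37 (by omega)
    obtain ⟨eD, -, -⟩ := cols (3 * M L) yD h30 h37 hMD (by omega)
    obtain ⟨eT, -, -⟩ := cols (3 * M L) (yD + 1) h30 h37 (by omega) (by omega)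
    refine (hacc.1 _ ?_ ?_).1
    · show (c (cornerAt o (3 * M L) yD)).fin.carry = _
      rw [eD, child_carry _ _ _ _ _ hX3 hYD,
        if_pos ⟨hcol3.1, hcol3.2, hMD, by omega, by omega, middle_midZ⟩,
        show rowIdx L yD = lastK C L by omega]
    · show (c (cornerAt o (3 * M L) (yD + 1))).fin.carry = none
      rw [eT, child_carry _ _ _ _ _ hX3 hYT, ← hyD, if_neg fun h => by rw [erT] at h; omega]
  obtain ⟨hz', hon'⟩ := hs.1.claims_fold self
  obtain ⟨hm0, hword, hedge⟩ := (Scanning.endOK_iff hL hreads (Decode.bounded L b _ _)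
    (fun a => Decode.bounded L b _ _) rfl hz' hon').1 hend
  refine ⟨s, hs, hfin, Prod.ext rfl hm0, fun g => Decode.bounded L b _ _, hnum, hword,
    fun a => (Scanning.edgeNum_iff _ _ _ _).2 ⟨hedge a, fun e => ?_⟩, fun hzone => ?_⟩
  · have hd := ((shape_facts hs.1).e self a rfl).digit e
    rw [show back self a = axis a from funext fun c => Bool.false_or _] at hd
    show if a = zAx e then ((s self).2.ex.z e).val = (((s (axis a)).2.ex.z e).val + 1) % base C.k
      else (s self).2.ex.z e = (s (axis a)).2.ex.z e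
    by_cases ha : a = zAx e
    · rw [if_pos ha] at hd ⊢
      rw [hd]
      have := ((s self).2.ex.z e).isLt
      rcases predDigit_cases ((s self).2.ex.z e) with ⟨h1, h2⟩ | ⟨h1, h2⟩
      · rw [h1, h2, Nat.mod_self]
      · rw [h2, Nat.mod_eq_of_lt this]
    · rw [if_neg ha] at hd ⊢
      exact hd.symm
  -- the lookup column
  have hpar := hzone
  simp only [Claims.zone, Claims.zoneAt, claims, Bool.or_eq_true, Bool.and_eq_true,
    decide_eq_true_iff] at hpar
  set xl' := lo (L + 1) (q self).x with hxl'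
  have hsm : xl' % 4 = 2 ∧ 2 ^ (B C - 1) ≤ xl' ∧ xl' < 2 ^ B C := by
    rcases hpar with ⟨⟨⟨-, h⟩, -⟩, -⟩ | ⟨⟨-, h⟩, -⟩ <;> exact h
  obtain ⟨hz6, hlo6, hj0, hj7⟩ :=
    zone_pos hL (m := 6) (le_refl 6) (by norm_num) hsm.1 hsm.2.1 hsm.2.2
  set i6 := 6 * M L + xl' with hi6def
  have hT := T_ge C
  have hkB : xlRow C (B C - 1) ≤ lastK C L := by
    have h1 : T C * (B C - 1) ≤ T C * L := Nat.mul_le_mul_left _ (by omega)
    unfold xlRow lastK
    omega
  obtain ⟨hyle, hMy, hr1, hr2, hhi⟩ := after_wire hL hkB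
  obtain ⟨hw, hwk⟩ := crossY_spec hL (xlRow C (B C - 1))
  set y6 := crossY L (xlRow C (B C - 1)) with hy6
  have hX := (slice_lt hL hj7).1
  have hY : y6 < H L := by have := (cornerH_lt hL).1; omega
  have hY' : y6 + 1 < H L := by have := (cornerH_lt hL).1; omega
  obtain ⟨hacc, -, hv⟩ := hc.above hj0 hj7 hyle
  obtain ⟨-, -, eD⟩ := cols i6 y6 hj0 hj7 hMy (by omega)
  obtain ⟨-, -, eT⟩ := cols i6 (y6 + 1) hj0 hj7 (by omega) hyle
  have sD := sh i6 y6 hj0 hj7 (by omega) (by omega)
  have sT := sh i6 (y6 + 1) hj0 hj7 (by omega) hyle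
  obtain ⟨dW, -, -, -⟩ := sD.tests (L := L)
  obtain ⟨-, -, -, tZ⟩ := sT.tests (L := L)
  have hlive : IsLive C L y6 := ⟨hw, by omega⟩
  have hrow : ∀ n, n ≤ L → b (xlRow C n) self = xl'.testBit n := fun n hn => hnum n hn 0 (by omega) self
  have hA' : A C ≤ xlRow C (B C - 1) := by unfold xlRow; omega
  have hTv : (c (cornerAt o i6 (y6 + 1))).fin.v =
      (lookAt C L i6 (xlRow C (B C - 1)) b).vv := by
    refine hacc.2.2 _ (s self).2 ?_ ?_ ?_ ?_ ?_ ?_ ?_
    · exact dW.trans ((claims_wire _ _ _ _ _ hY).2 hw)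
    · show (c (cornerAt o i6 y6)).fin.look = _
      rw [eD, child_look _ _ _ _ _ hX hY, if_pos ⟨hz6, hMy, hr1.le, middle_midZ⟩, hr1]
    · show (c (cornerAt o i6 (y6 + 1))).fin.look = none
      rw [eT, child_look _ _ _ _ _ hX hY', if_neg fun h => absurd h.2.2.1 (by omega)]
    · simp only [lookAt, decide_eq_true_iff, hlo6]
      exact fun n hn _ => hrow n (by omega)
    · show (c (cornerAt o i6 y6)).fin.h self = (claims L (c (cornerAt o i6 y6))).cm.ql
      rw [hh i6 y6 hj0 hj7 (by omega) (by omega) hlive, hwk, (sD.claims_eq (L := L)).2.2.1]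
      have := A_lt_YB C
      have e1 : min (xlRow C (B C - 1)) (YB C) = xlRow C (B C - 1) := by
        have h2 : T C * (B C - 1) ≤ T C * (B C + 2) := Nat.mul_le_mul_left _ (by omega)
        exact Nat.min_eq_left (by unfold xlRow YB; omega)
      have e2 : lidx C (xlRow C (B C - 1)) = B C - 1 := by
        unfold lidx xlRow
        rw [Nat.add_sub_cancel_left, Nat.mul_div_cancel_left _ (T_pos C)]
      simp only [claims, child_x _ _ _ _ _ hX, child_y _ _ _ _ _ hY, hlo6, hwk, e1, e2, hA',
        show B C - 1 < B C by omega, decide_true, Bool.true_and, hrow _ (show B C - 1 ≤ L by omega)]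
    · show claimsOfCopy (copyUpTo C b (xlRow C (B C - 1))).val = some (s self).2
      simp only [copyUpTo]
      rw [Nat.min_eq_right (show A C - 2 - AF C ≤ xlRow C (B C - 1) - AF C by omega)]
      have hsum : (∑ n ∈ Finset.range (A C - 2 - AF C), if b (AF C + n) self then 2 ^ n else 0) =
          code (s self).2 % 2 ^ (A C - 2 - AF C) := by
        rw [← sum_testBit]
        refine Finset.sum_congr rfl fun n hn => ?_
        rw [← hfin _ (by have := Finset.mem_range.1 hn; omega) self,
          finBits_claim _ (Finset.mem_range.1 hn)]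
      rw [hsum, Nat.mod_eq_of_lt (code_claims_lt _), Nat.mod_eq_of_lt (code_claims_lt _),
        claimsOfCopy_code]
    · exact (congrArg Claims.zone hm0).trans hzone
  have hzc : (claims L (c (cornerAt o i6 (y6 + 1)))).zone = true :=
    tZ.trans ((claims_zone _ _ _ _ _ hX hY').2 (Or.inr hz6))
  have h6 := hv hzc
  rw [sT.1, child_x _ _ _ _ _ hX, hlo6, hTv] at h6
  rw [← h6]
  show (s self).1.v = _
  have h00 : finBits (s self) 0 = b 0 self := hfin 0 (by omega) self
  have hv0 : 0 < xlRow C (B C - 1) := by omega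
  simp only [finBits, if_true] at h00
  simp only [lookAt, hv0, decide_true, Bool.true_and, h00]

end Vale.Agent.P193.W4.Common
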