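import Vale.Agent.P193.W4.Common.Desub.Parents

/-!
P193, module W4.A (common layer): desubstitution from its pieces. A valid tiling has one grid, its
shown bits are those of a family of parent bits, the corners give a valid tiling of parents with
these bits, and the tiles are their children; the parents are unique as their bits are read at the
crossings.
-/

noncomputable section

namespace Vale.Agent.P193.W4.Common.Desub

variable {C : Cfg} {L : ℕ} {c : Z5 → St C} {o : Z5}

/-- Tilings by parents are aligned with their grid. -/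
lemma aligned_of_isParent {c' : Z5 → St C} (h : IsParent L c c' o) : Aligned L c o :=
  fun P X Y Z hX hY => by
    rw [h.2 P X Y Z hX hY]
    exact ⟨child_x _ _ X Y Z hX, child_y _ _ X Y Z hY, rfl⟩

/-- The bits of a parent are read at its crossings. -/
lemma enc_parent (hL : L₀ C ≤ L) {c' : Z5 → St C} (h : IsParent L c c' o) (Q : Z5) (k : ℕ) :
    enc (L + 1) (c' Q) k = bitQuad L c o Q k self := by
  by_cases hk : k ≤ lastK C L
  · obtain ⟨hx, hy, hl, hi', hs⟩ := cross_facts hL hk
    simp only [bitQuad, bitAt, if_pos hk, dir_self, sub_zero]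
    rw [h.2 Q _ _ (midZ C) hx hy, childAt, child_h (table C) _ _ _ _ hx hy self,
      if_pos ⟨hl, hs self⟩, hi']
    simp [quadBits, quadAt, dir_self]
  · rw [enc_above _ (by omega)]
    simp [bitQuad, bitAt, hk]

/-- Desubstitution, from its pieces. -/
theorem desubStatement_of (hA : AlignStatement C) (hS : ShellStatement C) (hB : BitsStatement C)
    (hCh : ChildrenStatement C) (hK : CornerStatement C) : DesubStatement C := by
  intro L hL c hv
  obtain ⟨o, ⟨ho, ha⟩, huniq⟩ := hA L hL c hv
  have hs := hS L hL c o hv ha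
  have hb := hB L hL c o hv ha hs
  obtain ⟨c', hc', hbits⟩ := parents hK hL hv ha hb
  have hc : IsParent L c c' o := ⟨hc', fun P X Y Z hX hY => by
    rw [childAt, hbits]
    exact hCh L hL c o hv ha hs hb P X Y Z hX hY⟩
  refine ⟨(o, c'), ⟨ho, hc⟩, ?_⟩
  rintro ⟨o₁, c₁⟩ ⟨ho₁, h₁⟩
  obtain rfl : o₁ = o := huniq o₁ ⟨ho₁, aligned_of_isParent h₁⟩
  refine Prod.ext rfl (funext fun Q => ?_)
  exact enc_inj (h₁.1.bounded Q).1 (hc'.bounded Q).1 fun k =>
    (enc_parent hL h₁ Q k).trans (enc_parent hL hc Q k).symm

end Vale.Agent.P193.W4.Common.Desub
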