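import Vale.Agent.P193.W4.Common.Desub.Defs

/-!
P193, module W4.A (common layer): the slice of a corner where bits are read. Its columns are
stretches of columns of a parent, a row in use is in use in all of the slice, and it shows the bits
read at its crossing.
-/

noncomputable section

namespace Vale.Agent.P193.W4.Common

variable {C : Cfg} {L : ℕ} {c : Z5 → St C} {o : Z5}

lemma slice_bounds (hL : L₀ C ≤ L) :
    cornerH C L < H L ∧ 7 * M L < H L ∧ 1 ≤ cornerH C L ∧
      ∀ k, k ≤ lastK C L → 1 ≤ crossX L k ∧ crossX L k ≤ 7 * M L := by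
  obtain ⟨-, h2, -, -⟩ := bounds_M hL
  have hM := nine_le_M hL
  have hsq := M_le_sq L
  have hH := H_eq L
  have h3 : (lastK C L + 2) * M L ^ 2 ≤ M L * M L ^ 2 := Nat.mul_le_mul_right _ (by omega)
  have h4 : M L ^ 2 * 9 ≤ M L ^ 2 * M L := Nat.mul_le_mul_left _ hM
  refine ⟨?_, ?_, ?_, fun k hk => ?_⟩
  · unfold cornerH
    rw [show lastK C L + 2 = lastK C L + 1 + 1 from rfl, Nat.add_mul _ 1, one_mul] at h3
    have : M L < M L ^ 2 := by
      rw [sq]
      exact lt_mul_of_one_lt_left (by omega) (by omega)
    omega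
  · rw [Nat.mul_comm (M L ^ 2) (M L)] at h4
    omega
  · unfold cornerH
    omega
  · unfold crossX
    omega

namespace Corner

/-- The rules of a window of a corner. -/
lemma rules (hc : Corner L c o) {i j : ℕ} (hi : 1 ≤ i) (hi' : i ≤ 7 * M L) (hj : 1 ≤ j)
    (hj' : j ≤ cornerH C L) :
    (∀ g a, g a = false →
      EdgeNum L a (c (cornerAt o i j - dir g)) (c (cornerAt o i j - dir (back g a))) ∧
        EFacts a (cell L (c (cornerAt o i j - dir g)))
          (cell L (c (cornerAt o i j - dir (back g a))))) ∧
      ∀ g, PFacts (cell L (c (cornerAt o i j - dir g))) := by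
  have h := (hc.valid i j hi hi' hj hj').1
  have hf := shape_facts h.2.2.1
  exact ⟨fun g a ha => ⟨h.2.1 g a ha, hf.e g a ha⟩, fun g => hf.p g⟩

/-- A tile of a corner and the one behind it on an axis. -/
lemma at_step (hc : Corner L c o) {i j : ℕ} (hi : 1 ≤ i) (hi' : i ≤ 7 * M L) (hj : 1 ≤ j)
    (hj' : j ≤ cornerH C L) (a : Fin 5) :
    EdgeNum L a (c (cornerAt o i j)) (c (cornerAt o i j - Pi.single a 1)) ∧
      EFacts a (cell L (c (cornerAt o i j))) (cell L (c (cornerAt o i j - Pi.single a 1))) := by
  have h := (hc.rules hi hi' hj hj').1 self a rfl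
  have e1 : dir self = 0 := funext fun b => by simp [dir, self]
  have e2 : dir (back self a) = Pi.single a 1 := funext fun b => by
    simp [dir, self, back, Pi.single_apply]
  rwa [e1, e2, sub_zero] at h

lemma x_step (hc : Corner L c o) {i j : ℕ} (hi' : i + 1 ≤ 7 * M L) (hj : 1 ≤ j)
    (hj' : j ≤ cornerH C L) :
    EdgeNum L 0 (c (cornerAt o (i + 1) j)) (c (cornerAt o i j)) ∧
      EFacts 0 (cell L (c (cornerAt o (i + 1) j))) (cell L (c (cornerAt o i j))) := by
  have h := hc.at_step (i := i + 1) (by omega) hi' hj hj' 0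
  have e : cornerAt o (i + 1) j - Pi.single 0 1 = cornerAt o i j := by
    funext b
    fin_cases b <;> simp [cornerAt, Matrix.vecHead, Matrix.vecTail]
    omega
  rwa [e] at h

lemma y_step (hc : Corner L c o) {i j : ℕ} (hi : 1 ≤ i) (hi' : i ≤ 7 * M L)
    (hj' : j + 1 ≤ cornerH C L) :
    EdgeNum L 1 (c (cornerAt o i (j + 1))) (c (cornerAt o i j)) ∧
      EFacts 1 (cell L (c (cornerAt o i (j + 1)))) (cell L (c (cornerAt o i j))) := by
  have h := hc.at_step (j := j + 1) hi hi' (by omega) hj' 1
  have e : cornerAt o i (j + 1) - Pi.single 1 1 = cornerAt o i j := by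
    funext b
    fin_cases b <;> simp [cornerAt, Matrix.vecHead, Matrix.vecTail]
    omega
  rwa [e] at h

/-- The bottom row of the slice. -/
lemma bottom (hL : L₀ C ≤ L) (hc : Corner L c o) {i : ℕ} (hi : 1 ≤ i) (hi' : i ≤ 7 * M L) :
    (c (cornerAt o i 0)).x = i ∧ (c (cornerAt o i 0)).y = 0 ∧ (c (cornerAt o i 0)).z = midZ C := by
  obtain ⟨-, hH, hc1, -⟩ := slice_bounds (C := C) hL
  -- along `x` in the row and digits `0`
  have hrow : ∀ n, n ≤ 7 * M L → (c (o + ![(n : ℤ), 0, 0, 0, 0])).x = n ∧
      (c (o + ![(n : ℤ), 0, 0, 0, 0])).y = 0 ∧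
      ∀ r, ((c (o + ![(n : ℤ), 0, 0, 0, 0])).z r).val = 0 := by
    intro n
    induction n with
    | zero =>
      intro _
      have e : o + ![((0 : ℕ) : ℤ), 0, 0, 0, 0] = o := by
        funext b
        fin_cases b <;> simp
      rw [e]
      exact ⟨hc.x_zero, hc.y_zero, hc.z_zero⟩
    | succ n ih =>
      intro hn
      obtain ⟨hx, hy, hz⟩ := ih (by omega)
      have h := ((hc.rules (i := n + 1) (j := 1) (by omega) hn le_rfl hc1).1
        ![false, true, true, true, true] 0 rfl).1
      have e1 : cornerAt o (n + 1) 1 - dir ![false, true, true, true, true] =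
          o + ![((n + 1 : ℕ) : ℤ), 0, 0, 0, 0] := by
        funext b
        fin_cases b <;> simp [cornerAt, dir, Matrix.vecHead, Matrix.vecTail]
      have e2 : cornerAt o (n + 1) 1 - dir (back ![false, true, true, true, true] 0) =
          o + ![(n : ℤ), 0, 0, 0, 0] := by
        funext b
        fin_cases b <;> simp [cornerAt, dir, back, Matrix.vecHead, Matrix.vecTail]
        omega
      rw [e1, e2] at h
      obtain ⟨h1, h2, -, -, h5⟩ := h
      rw [if_pos rfl, hx, Nat.mod_eq_of_lt (by omega)] at h1
      rw [if_neg (show ¬(0 : Fin 5) = 1 by decide), hy] at h2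
      refine ⟨h1, h2, fun r => ?_⟩
      have := h5 r
      rw [if_neg (show ¬(0 : Fin 5) = zAx r by fin_cases r <;> decide)] at this
      rw [this]
      exact hz r
  obtain ⟨hx, hy, hz⟩ := hrow i hi'
  -- the three digits
  have hb : 1 < base C.k := by have := base_ge C.k; omega
  have step : ∀ (g : Guest) (r : Fin 3), g (zAx r) = false →
      EdgeNum L (zAx r) (c (cornerAt o i 1 - dir g))
        (c (cornerAt o i 1 - dir (back g (zAx r)))) :=
    fun g r hg => ((hc.rules (i := i) (j := 1) hi hi' le_rfl hc1).1 g _ hg).1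
  have p0 : cornerAt o i 1 - dir (back ![false, true, false, true, true] (zAx 0)) =
      o + ![(i : ℤ), 0, 0, 0, 0] := by
    funext b
    fin_cases b <;> simp [cornerAt, dir, back, zAx, Matrix.vecHead, Matrix.vecTail]
  have p1 : cornerAt o i 1 - dir (back ![false, true, false, false, true] (zAx 1)) =
      cornerAt o i 1 - dir ![false, true, false, true, true] := by
    funext b
    fin_cases b <;> simp [cornerAt, dir, back, zAx, Matrix.vecHead, Matrix.vecTail]
  have p2 : cornerAt o i 1 - dir (back ![false, true, false, false, false] (zAx 2)) =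
      cornerAt o i 1 - dir ![false, true, false, false, true] := by
    funext b
    fin_cases b <;> simp [cornerAt, dir, back, zAx, Matrix.vecHead, Matrix.vecTail]
  have p3 : cornerAt o i 1 - dir ![false, true, false, false, false] = cornerAt o i 0 := by
    funext b
    fin_cases b <;> simp [cornerAt, dir, Matrix.vecHead, Matrix.vecTail]
  have a0 := step ![false, true, false, true, true] 0 rfl
  have a1 := step ![false, true, false, false, true] 1 rfl
  have a2 := step ![false, true, false, false, false] 2 rfl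
  rw [p0] at a0
  rw [p1] at a1
  rw [p2, p3] at a2
  obtain ⟨x0, y0, -, -, z0⟩ := a0
  obtain ⟨x1, y1, -, -, z1⟩ := a1
  obtain ⟨x2, y2, -, -, z2⟩ := a2
  rw [if_neg (by decide)] at x0 y0 x1 y1 x2 y2
  refine ⟨by omega, by omega, funext fun r => Fin.ext ?_⟩
  show _ = 1
  have b0 := z0 r
  have b1 := z1 r
  have b2 := z2 r
  have := hz r
  fin_cases r
  all_goals
    simp [zAx] at b0 b1 b2 this ⊢
  all_goals
    simp_all [Nat.mod_eq_of_lt hb]

/-- The positions of the slice. -/
lemma pos (hL : L₀ C ≤ L) (hc : Corner L c o) {i j : ℕ} (hi : 1 ≤ i) (hi' : i ≤ 7 * M L)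
    (hj' : j ≤ cornerH C L) :
    (c (cornerAt o i j)).x = i ∧ (c (cornerAt o i j)).y = j ∧ (c (cornerAt o i j)).z = midZ C := by
  induction j with
  | zero => exact hc.bottom hL hi hi'
  | succ j ih =>
    obtain ⟨hx, hy, hz⟩ := ih (by omega)
    obtain ⟨h1, h2, -, -, h5⟩ := (hc.y_step hi hi' hj').1
    have hH := (slice_bounds (C := C) hL).1
    rw [if_neg (show ¬(1 : Fin 5) = 0 by decide), hx] at h1
    rw [if_pos rfl, hy, Nat.mod_eq_of_lt (by omega)] at h2
    refine ⟨h1, h2.1, funext fun r => ?_⟩
    have := h5 r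
    rw [if_neg (show ¬(1 : Fin 5) = zAx r by fin_cases r <;> decide)] at this
    rw [this, hz]

/-- The columns of the slice. -/
lemma col (hL : L₀ C ≤ L) (hc : Corner L c o) {i : ℕ} (hi : 1 ≤ i) (hi' : i ≤ 7 * M L) :
    Col L i (midZ C) (cornerH C L) (fun j => c (cornerAt o i j)) where
  x_lt := lt_of_le_of_lt hi' (slice_bounds (C := C) hL).2.1
  n_lt := (slice_bounds (C := C) hL).1
  pos _ hj := hc.pos hL hi hi' hj
  pfacts j hj hj' := by
    have h := (hc.rules hi hi' hj hj').2 self
    rwa [show dir self = 0 from funext fun b => by simp [dir, self], sub_zero] at h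
  step _ hj := hc.y_step hi hi' hj

/-- The rows in use of the slice. -/
lemma live_eq (hcol : ColumnStatement C) (hL : L₀ C ≤ L) (hc : Corner L c o) {i j : ℕ}
    (hi : 1 ≤ i) (hi' : i ≤ 7 * M L) (hj : 1 ≤ j) (hj' : j ≤ cornerH C L) :
    (c (cornerAt o i j)).fin.live = decide (IsLive C L j) := by
  have hconst : ∀ n, 1 ≤ n → n ≤ 7 * M L →
      (c (cornerAt o n j)).fin.live = (c (cornerAt o 1 j)).fin.live := by
    intro n
    induction n with
    | zero => intro h; omega
    | succ n ih =>
      intro _ hn
      rcases Nat.eq_zero_or_pos n with rfl | hn0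
      · rfl
      · exact ((hc.x_step hn hj hj').2.live (by decide)).trans (ih hn0 (by omega))
  have hM := nine_le_M hL
  have hs : IsCol L (3 * M L) 3 ∧ lo L (3 * M L) = 0 :=
    (col0_iff (by omega)).2 (Nat.mul_comm _ _)
  rw [hconst i hi hi', ← hconst (3 * M L) (by omega) (by omega)]
  exact (hcol L hL _ _ _ _ (hc.col hL (show 1 ≤ 3 * M L by omega) (by omega)) j hj hj').2.2 hs
    middle_midZ

/-- The bits shown in the slice are those read at the crossings. -/
lemma h_eq (hcol : ColumnStatement C) (hL : L₀ C ≤ L) (hc : Corner L c o) {i j : ℕ}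
    (hi : 1 ≤ i) (hi' : i ≤ 7 * M L) (hj : 1 ≤ j) (hj' : j ≤ cornerH C L) :
    (c (cornerAt o i j)).fin.h = (child L (table C) (cornerBits L c o) i j (midZ C)).fin.h := by
  obtain ⟨hH, hH7, -, hx⟩ := slice_bounds (C := C) hL
  have hb := base_ge C.k
  have hk : (child L (table C) (cornerBits L c o) i j (midZ C)).fin.h =
      fun g => if IsLive C L j then cornerBits L c o (Common.hi L j) g else false := by
    funext g
    rw [child_h (table C) _ i j _ (by omega) (by omega)]
    refine if_congr ⟨fun h => h.1, fun h => ⟨h, fun e => by omega, fun e => ?_, fun r => ?_⟩⟩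
      rfl rfl
    · unfold cutX at e
      omega
    · exact ⟨fun e => absurd e (by show (1 : ℕ) ≠ 0; omega),
        fun e => absurd e (by show (1 : ℕ) + 1 ≠ base C.k; omega)⟩
  rw [hk]
  by_cases hl : IsLive C L j
  swap
  · funext g
    rw [if_neg hl]
    exact ((hc.col hL hi hi').pfacts j hj hj').h_zero
      (show (c (cornerAt o i j)).fin.live = false by
        rw [hc.live_eq hcol hL hi hi' hj hj']; simp [hl]) g
  have hconst : ∀ n, 1 ≤ n → n ≤ 7 * M L →
      (c (cornerAt o n j)).fin.h = (c (cornerAt o 1 j)).fin.h := by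
    intro n
    induction n with
    | zero => intro h; omega
    | succ n ih =>
      intro _ hn
      rcases Nat.eq_zero_or_pos n with rfl | hn0
      · rfl
      refine Eq.trans ?_ (ih hn0 (by omega))
      have hr := (hc.x_step hn hj hj').2.h (by decide)
      have s1 := (hcol L hL _ _ _ _ (hc.col hL (show 1 ≤ n + 1 by omega) hn) j hj hj').1
      have s2 := (hcol L hL _ _ _ _ (hc.col hL hn0 (show n ≤ 7 * M L by omega)) j hj hj').1
      have e1 : (claims L (c (cornerAt o (n + 1) j))).firstAt 0 = false := by
        show (claims L (c (cornerAt o (n + 1) j))).x0 = false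
        rw [Bool.eq_false_iff]
        unfold Claims.x0
        rw [s1.claims_eq.1]
        intro h
        exact Nat.succ_ne_zero n ((claims_x0 _ _ _ j _ (by omega)).1 h)
      have e2 : (claims L (c (cornerAt o n j))).cutAt 0 = false := by
        show (claims L (c (cornerAt o n j))).cut = false
        rw [Bool.eq_false_iff]
        unfold Claims.cut
        rw [s2.claims_eq.1]
        intro h
        have := (claims_cut _ _ _ j _ hL (by omega)).1 h
        unfold cutX at this
        omega
      have e3 : (claims L (c (cornerAt o n j))).firstAt 0 = false := by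
        show (claims L (c (cornerAt o n j))).x0 = false
        rw [Bool.eq_false_iff]
        unfold Claims.x0
        rw [s2.claims_eq.1]
        intro h
        have := (claims_x0 _ _ _ j _ (by omega)).1 h
        omega
      simp only [BitRule, e1, e2, e3] at hr
      exact hr
  funext g
  rw [if_pos hl, cornerBits, if_pos hl.2]
  have hj2 : j = crossY L (Common.hi L j) := by
    have := coord_eq L j
    rw [hl.1.1, hl.1.2, mul_one, add_zero, Nat.mul_comm (M L ^ 2)] at this
    unfold crossY
    omega
  rw [← hj2, hconst i hi hi', hconst _ (hx _ hl.2).1 (hx _ hl.2).2]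

end Corner

/-- The slice of a corner is that of children with the bits read in it. -/
theorem slice_of_column (hcol : ColumnStatement C) : SliceStatement C :=
  fun _ hL _ _ hc _ hi hi' => ⟨hc.col hL hi hi', fun _ hj hj' => hc.h_eq hcol hL hi hi' hj hj'⟩

end Vale.Agent.P193.W4.Common
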