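import Vale.Agent.P193.W4.Common.Desub.Align
import Vale.Agent.P193.W4.Common.Desub.Bits
import Vale.Agent.P193.W4.Common.Desub.Children
import Vale.Agent.P193.W4.Common.Desub.Column
import Vale.Agent.P193.W4.Common.Desub.CornerOK
import Vale.Agent.P193.W4.Common.Desub.Slice
import Vale.Agent.P193.W4.Common.Desub.Main

/-!
P193, module W4.A (common layer): every valid tiling is uniquely a tiling by children of a valid
tiling one level up.
-/

namespace Vale.Agent.P193.W4.Common

/-- A corner shows an accepted window of parents. -/
theorem cornerStatement (C : Cfg) : CornerStatement C :=
  cornerStatement_of (columnStatement C) (columnsStatement C) (slice_of_column (columnStatement C))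

/-- Local rules force the next level, uniquely. -/
theorem desubStatement (C : Cfg) : DesubStatement C :=
  Desub.desubStatement_of (alignStatement C) (shellStatement C (columnStatement C))
    (bitsStatement C) (children_of_columns (columnsStatement C)) (cornerStatement C)

end Vale.Agent.P193.W4.Common
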