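import Vale.Agent.P193.W4.Common.Desub.Defs

/-!
P193, module W4.A (common layer): a valid tiling has exactly one grid of parents.

The five coordinates count modulo the extents; rows in use are equal across all axes but the
vertical one, so they are those of the scanning column at middle digits.
-/

noncomputable section

namespace Vale.Agent.P193.W4.Common

variable {C : Cfg} {L : ℕ}

namespace Align

/-- A property which moves along all axes holds everywhere if it holds at the origin. -/
lemma forall_of_steps {p : Z5 → Prop} (h0 : p 0)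
    (h : ∀ P a, p (P - Pi.single a 1) ↔ p P) (P : Z5) : p P := by
  suffices H : ∀ n, ∀ P : Z5, ∑ a, (P a).natAbs ≤ n → p P from H _ P le_rfl
  intro n
  induction n with
  | zero =>
    intro P hP
    have : P = 0 := funext fun a => by
      have := Finset.single_le_sum (fun b _ => Nat.zero_le ((P b).natAbs)) (Finset.mem_univ a)
      show P a = 0
      omega
    exact this ▸ h0
  | succ n ih =>
    intro P hP
    by_cases hz : ∀ a, P a = 0
    · exact (funext hz : P = 0) ▸ h0
    push Not at hz
    obtain ⟨a, ha⟩ := hz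
    have key : ∀ Q : Z5, (∀ b, b ≠ a → Q b = P b) → (Q a).natAbs < (P a).natAbs → p Q := by
      intro Q hb hlt
      refine ih Q ?_
      have := Finset.sum_lt_sum (s := Finset.univ) (f := fun b => (Q b).natAbs)
        (g := fun b => (P b).natAbs) (fun b _ => by
          by_cases hba : b = a
          · subst hba; exact hlt.le
          · rw [hb b hba]) ⟨a, Finset.mem_univ a, hlt⟩
      omega
    rcases lt_or_gt_of_ne ha with hneg | hpos
    · have := key (P + Pi.single a 1) (fun b hb => by simp [hb]) (by
        simp only [Pi.add_apply, Pi.single_eq_same]; omega)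
      have h' := h (P + Pi.single a 1) a
      rw [add_sub_cancel_right] at h'
      exact h'.2 this
    · exact (h P a).1 (key (P - Pi.single a 1) (fun b hb => by simp [hb]) (by
        simp only [Pi.sub_apply, Pi.single_eq_same]; omega))

/-- The residue of `n` modulo `K`. -/
def res (K : ℕ) (n : ℤ) : ℕ := (n % (K : ℤ)).toNat

lemma res_lt {K : ℕ} (hK : 0 < K) (n : ℤ) : res K n < K := by
  have := Int.emod_lt_of_pos n (show (0 : ℤ) < K by omega)
  have := Int.emod_nonneg n (show (K : ℤ) ≠ 0 by omega)
  unfold res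
  omega

lemma res_eq {K j : ℕ} (hj : j < K) (n : ℤ) (h : (K : ℤ) ∣ n - j) : res K n = j := by
  obtain ⟨t, ht⟩ := h
  rw [res, show n = (j : ℤ) + (K : ℤ) * t by linarith, Int.add_mul_emod_self_left,
    Int.emod_eq_of_lt (by omega) (by omega), Int.toNat_natCast]

lemma dvd_sub_res {K : ℕ} (hK : 0 < K) (n : ℤ) : (K : ℤ) ∣ n - res K n := by
  rw [res, Int.toNat_of_nonneg (Int.emod_nonneg _ (by omega))]
  exact ⟨n / (K : ℤ), by linarith [Int.emod_add_mul_ediv n (K : ℤ)]⟩

lemma res_succ {K : ℕ} (hK : 0 < K) (n : ℤ) : res K (n + 1) = (res K n + 1) % K := by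
  refine res_eq (Nat.mod_lt _ hK) _ ?_
  obtain ⟨t, ht⟩ := dvd_sub_res hK n
  have := Nat.div_add_mod (res K n + 1) K
  refine ⟨t + ((res K n + 1) / K : ℕ), ?_⟩
  have h : ((K * ((res K n + 1) / K) : ℕ) : ℤ) + (((res K n + 1) % K : ℕ) : ℤ) =
      ((res K n + 1 : ℕ) : ℤ) := by exact_mod_cast this
  push_cast at h ⊢
  linarith

lemma succ_inj {K a b : ℕ} (ha : a < K) (hb : b < K) (h : (a + 1) % K = (b + 1) % K) : a = b := by
  rcases Nat.lt_or_ge (a + 1) K with h1 | h1 <;> rcases Nat.lt_or_ge (b + 1) K with h2 | h2
  · rw [Nat.mod_eq_of_lt h1, Nat.mod_eq_of_lt h2] at h; omega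
  · rw [Nat.mod_eq_of_lt h1, show b + 1 = K by omega, Nat.mod_self] at h; omega
  · rw [Nat.mod_eq_of_lt h2, show a + 1 = K by omega, Nat.mod_self] at h; omega
  · omega

/-- The position of a tile on an axis. -/
def axPos (t : St C) : Fin 5 → ℕ := ![t.x, t.y, (t.z 0).val, (t.z 1).val, (t.z 2).val]

/-- The period of an axis. -/
def axPer (C : Cfg) (L : ℕ) : Fin 5 → ℕ := ![H L, H L, base C.k, base C.k, base C.k]

lemma per_pos (L : ℕ) (a : Fin 5) : 0 < axPer C L a := by
  have := base_ge C.k
  fin_cases a <;> simp [axPer, H_pos] <;> omega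

lemma extent_eq (L : ℕ) (a : Fin 5) : extent C L a = (axPer C L a : ℤ) := by
  fin_cases a <;> simp [extent, axPer]

lemma pos_lt {c : Z5 → St C} (hc : ValidTiling L c) (P : Z5) (a : Fin 5) :
    axPos (c P) a < axPer C L a := by
  obtain ⟨hx, hy, -, -⟩ := (hc.bounded P).1
  fin_cases a <;> simp [axPos, axPer, hx, hy]

lemma pos_step {c : Z5 → St C} (hc : ValidTiling L c) (P : Z5) (b a : Fin 5) :
    axPos (c P) a = if b = a then (axPos (c (P - Pi.single b 1)) a + 1) % axPer C L a
      else axPos (c (P - Pi.single b 1)) a := by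
  obtain ⟨h0, h1, -, -, hz⟩ := (hc.step P b).1
  have g : ∀ i : Fin 3, ((c P).z i).val = if b = zAx i
      then (((c (P - Pi.single b 1)).z i).val + 1) % base C.k
      else ((c (P - Pi.single b 1)).z i).val := fun i => by
    have := hz i
    split_ifs at this ⊢
    · exact this
    · rw [this]
  have g0 := g 0
  have g1 := g 1
  have g2 := g 2
  fin_cases a
  · by_cases hb : b = 0
    · rw [if_pos hb] at h0; simpa [axPos, axPer, hb] using h0
    · rw [if_neg hb] at h0; simpa [axPos, axPer, hb] using h0
  · by_cases hb : b = 1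
    · rw [if_pos hb] at h1; simpa [axPos, axPer, hb] using h1.1
    · rw [if_neg hb] at h1; simpa [axPos, axPer, hb] using h1
  · exact g0
  · exact g1
  · exact g2

/-- The coordinates are residue counters. -/
lemma pos_eq {c : Z5 → St C} (hc : ValidTiling L c) (a : Fin 5) (P : Z5) :
    axPos (c P) a = res (axPer C L a) (P a + axPos (c 0) a) := by
  refine forall_of_steps (p := fun P => axPos (c P) a = res (axPer C L a) (P a + axPos (c 0) a)) ?_ ?_ P
  · exact (res_eq (pos_lt hc 0 a) _ (by simp)).symm
  intro Q b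
  have hq := pos_step hc Q b a
  have hK := per_pos (C := C) L a
  by_cases hb : b = a
  · subst hb
    rw [if_pos rfl] at hq
    have e : res (axPer C L b) (Q b + axPos (c 0) b) =
        (res (axPer C L b) ((Q - Pi.single b 1 : Z5) b + axPos (c 0) b) + 1) % axPer C L b := by
      rw [← res_succ hK]
      congr 1
      simp
      ring
    rw [hq, e]
    exact ⟨fun h => by rw [h], fun h => succ_inj (pos_lt hc _ b) (res_lt hK _) h⟩
  · rw [if_neg hb] at hq
    rw [hq, show (Q - Pi.single b 1 : Z5) a = Q a by simp [Ne.symm hb]]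

lemma place_at (o P : Z5) (X Y : ℕ) (Z : Digits C) (a : Fin 5) :
    place L o P X Y Z a = o a + (axPer C L a : ℤ) * P a +
      ((![X, Y, (Z 0).val, (Z 1).val, (Z 2).val] a : ℕ) : ℤ) := by
  fin_cases a <;> simp [place, extent, axPer]

end Align

open Align

/-- A valid tiling has exactly one grid of parents. -/
theorem alignStatement (C : Cfg) : AlignStatement C := by
  intro L _ c hc
  refine ⟨fun a => ((res (axPer C L a) (-(axPos (c 0) a : ℤ)) : ℕ) : ℤ), ⟨fun a => ?_, ?_⟩, ?_⟩
  · rw [extent_eq]
    exact ⟨Int.natCast_nonneg _, Int.ofNat_lt.2 (res_lt (per_pos L a) _)⟩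
  · intro P X Y Z hX hY
    set o : Z5 := fun a => ((res (axPer C L a) (-(axPos (c 0) a : ℤ)) : ℕ) : ℤ) with ho
    have hv : ∀ a, ![X, Y, (Z 0).val, (Z 1).val, (Z 2).val] a < axPer C L a := fun a => by
      fin_cases a <;> simp [axPer, hX, hY]
    have key : ∀ a, axPos (c (place L o P X Y Z)) a = ![X, Y, (Z 0).val, (Z 1).val, (Z 2).val] a := by
      intro a
      rw [pos_eq hc, place_at]
      refine res_eq (hv a) _ ?_
      obtain ⟨t, ht⟩ := dvd_sub_res (per_pos (C := C) L a) (-(axPos (c 0) a : ℤ))
      exact ⟨P a - t, by rw [ho]; linear_combination -ht⟩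
    refine ⟨key 0, key 1, funext fun i => Fin.ext ?_⟩
    fin_cases i
    · exact key 2
    · exact key 3
    · exact key 4
  · rintro o ⟨ho, ha⟩
    funext a
    have hb := base_ge C.k
    obtain ⟨h1, h2, h3⟩ := ha 0 0 0 (fun _ => ⟨0, by omega⟩) (H_pos L) (H_pos L)
    have hp : axPos (c (place L o 0 0 0 (fun _ => (⟨0, by omega⟩ : Fin (base C.k))))) a = 0 := by
      fin_cases a <;> simp [axPos, h1, h2, h3]
    rw [pos_eq hc, place_at] at hp
    obtain ⟨hn, hlt⟩ := ho a
    rw [extent_eq] at hlt
    obtain ⟨m, hm⟩ := Int.eq_ofNat_of_zero_le hn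
    obtain ⟨t, ht⟩ := dvd_sub_res (per_pos (C := C) L a)
      (o a + (axPer C L a : ℤ) * (0 : Z5) a + ((![0, 0, 0, 0, 0] a : ℕ) : ℤ) + axPos (c 0) a)
    have e0 : (![0, 0, 0, 0, 0] : Fin 5 → ℕ) a = 0 := by fin_cases a <;> rfl
    rw [hp, e0] at ht
    have : res (axPer C L a) (-(axPos (c 0) a : ℤ)) = m := by
      refine res_eq (by omega) _ ⟨-t, ?_⟩
      simp at ht
      linarith
    show o a = ((res (axPer C L a) (-(axPos (c 0) a : ℤ)) : ℕ) : ℤ)
    rw [this, hm]

/-- Counters and rows in use of an aligned valid tiling are those of children. -/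
theorem shellStatement (C : Cfg) (hcol : ColumnStatement C) : ShellStatement C := by
  intro L hL c o hc ha P X Y Z hX hY
  have col : ∀ X (Z : Digits C), X < H L →
      Col L X Z (H L - 1) (fun j => c (place L o P X j Z)) := fun X Z hX =>
    ⟨hX, by have := H_pos L; omega, fun j hj => ha P X j Z hX (by have := H_pos L; omega),
      fun j _ _ => hc.pfacts _, fun j _ => by
        have e : place L o P X (j + 1) Z - Pi.single 1 1 = place L o P X j Z := by
          funext a
          rw [Pi.sub_apply, place_at, place_at]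
          fin_cases a <;> simp
          ring
        have := hc.step (place L o P X (j + 1) Z) 1
        rwa [e] at this⟩
  obtain ⟨hx, hy, hz⟩ := ha P X Y Z hX hY
  rcases Nat.eq_zero_or_pos Y with rfl | hY1
  · have hn := (hc.step (place L o P X 0 Z) 1).1.2.1
    rw [if_pos rfl] at hn
    have hu := hn.2
    unfold CounterNum at hu
    rw [if_neg (by simp [hy])] at hu
    have hM := M_pos L
    refine ⟨⟨?_, ?_, hz, ?_⟩, ?_⟩
    · exact hx.trans (child_x _ _ X 0 Z hX).symm
    · exact hy.trans (child_y _ _ X 0 Z hY).symm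
    · rw [hu, shell, child_u _ _ X 0 Z hX hY, if_neg]
      rintro ⟨-, -, h, -⟩
      omega
    · have hn0 : ¬ IsWire L 0 := (rows_zero (C := C) hL).1
      rw [decide_eq_false fun h : IsLive C L 0 => hn0 h.1]
      refine Bool.eq_false_iff.2 fun h => hn0 ?_
      have := (hc.pfacts _).live_wire h
      simp only [Claims.isWire, Bool.and_eq_true, decide_eq_true_iff, claims, hy] at this
      refine ⟨this.1, ?_⟩
      have := this.2
      omega
  have hj : Y ≤ H L - 1 := by omega
  refine ⟨(hcol L hL X Z _ _ (col X Z hX) Y hY1 hj).1, ?_⟩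
  -- rows in use do not depend on the axes other than the vertical one
  have h3 : 3 * M L < H L := by
    have := (cuts_lt hL).2.1
    unfold cutX at this
    omega
  have hs : IsCol L (3 * M L) 3 ∧ lo L (3 * M L) = 0 :=
    (col0_iff (by have := nine_le_M hL; omega)).2 (Nat.mul_comm _ _)
  rw [← (hcol L hL _ (midZ C) _ _ (col (3 * M L) (midZ C) h3) Y hY1 hj).2.2 hs middle_midZ]
  set Q := place L o P (3 * M L) Y (midZ C) with hQ
  have key : ∀ D : Z5, (c (Q + Function.update D 1 0)).fin.live = (c Q).fin.live := by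
    refine forall_of_steps ?_ fun D b => ?_
    · rw [show Function.update (0 : Z5) 1 0 = 0 by funext a; simp [Function.update_apply]]
      simp
    · by_cases hb : b = 1
      · subst hb
        rw [show Function.update (D - Pi.single 1 1) 1 0 = Function.update D 1 0 by
          funext a; by_cases h : a = 1 <;> simp [h]]
      · rw [show Q + Function.update (D - Pi.single b 1) 1 0 =
          Q + Function.update D 1 0 - Pi.single b 1 by
          funext a; by_cases h : a = 1
          · subst h; simp [Ne.symm hb]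
          · simp [h]; ring]
        have := (hc.step (Q + Function.update D 1 0) b).2.live hb
        rw [this]
  have := key (place L o P X Y Z - Q)
  rw [show Q + Function.update (place L o P X Y Z - Q) 1 0 = place L o P X Y Z by
    funext a
    by_cases h : a = 1
    · subst h; simp [hQ, place_at]
    · simp [h]] at this
  exact this

end Vale.Agent.P193.W4.Common
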