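import Vale.Agent.P193.W4.Common.Facts.Claims
import Vale.Agent.P193.W4.Common.Desub.Decode

/-!
P193, module W4.A (common layer): the parents of an aligned valid tiling with parent bits.

The first position of every parent is a corner, its bits are those of the parent; the corners give
a valid tiling one level up.
-/

noncomputable section

namespace Vale.Agent.P193.W4.Common.Desub

variable {C : Cfg} {L : ℕ} {c : Z5 → St C} {o : Z5}

/-! ### The number rows -/

/-- A number row of a state. -/
lemma enc_num (L' : ℕ) (t : St C) {i τ : ℕ} (hτ : τ < T C) :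
    enc L' t (A C + T C * i + τ) = (decide (i < L') && (num L' t τ).testBit i) := by
  have hd : (A C + T C * i + τ - A C) / T C = i := by
    rw [Nat.add_assoc, Nat.add_sub_cancel_left, Nat.mul_add_div (T_pos C), Nat.div_eq_of_lt hτ,
      add_zero]
  have hm : (A C + T C * i + τ - A C) % T C = τ := by
    rw [Nat.add_assoc, Nat.add_sub_cancel_left, Nat.mul_add_mod, Nat.mod_eq_of_lt hτ]
  rw [enc, if_neg (by omega), hd, hm]

/-- No bits are shown above the last wire row in use. -/
lemma enc_above {L : ℕ} (t : St C) {k : ℕ} (hk : lastK C L < k) : enc (L + 1) t k = false := by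
  have hT := T_pos C
  have h1 : L + 1 ≤ (k - A C) / T C := by
    rw [Nat.le_div_iff_mul_le hT, Nat.add_mul, one_mul, Nat.mul_comm L]
    unfold lastK at hk
    omega
  rw [enc, if_neg (by unfold lastK at hk; omega), decide_eq_false (by omega), Bool.false_and]

/-! ### Corners of the parents -/

/-- The first digits. -/
def zeroZ (C : Cfg) : Digits C := fun _ => ⟨0, by unfold base; omega⟩

/-- The first position of the parent `P`. -/
def firstPos (C : Cfg) (L : ℕ) (o P : Z5) : Z5 := place L o P 0 0 (zeroZ C)

lemma cornerAt_first (o P : Z5) (i j : ℕ) :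
    cornerAt (firstPos C L o P) i j = place L o P i j (midZ C) := by
  funext a
  simp only [cornerAt, firstPos, place, Pi.add_apply]
  fin_cases a <;> simp [zeroZ, midZ]

/-- Where the bit `k` is read. -/
lemma cross_facts (hL : L₀ C ≤ L) {k : ℕ} (hk : k ≤ lastK C L) :
    crossX L k < H L ∧ crossY L k < H L ∧ IsLive C L (crossY L k) ∧ hi L (crossY L k) = k ∧
      ∀ g, ShownH L (crossX L k) (midZ C) g := by
  have hM := nine_le_M hL
  obtain ⟨-, hK, -, -⟩ := bounds_M hL
  obtain ⟨-, hcut, -, -⟩ := cuts_lt hL
  have hx : crossX L k ≤ cutX L := by unfold crossX cutX; omega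
  obtain ⟨h1, h2, h3⟩ := coord_of (L := L) (a := k) (show 1 < M L by omega) (M_pos L)
  rw [show M L ^ 2 * k + M L * 1 + 0 = crossY L k by unfold crossY; ring] at h1 h2 h3
  refine ⟨by omega, ?_, ⟨⟨h3, h2⟩, by omega⟩, h1, fun g => ⟨fun e => ?_, fun e => by omega,
    fun i => ⟨fun e => ?_, fun e => ?_⟩⟩⟩
  · have h4 : (k + 2) * M L ^ 2 ≤ M L * M L ^ 2 := Nat.mul_le_mul_right _ (by omega)
    have h5 := M_le_sq L
    rw [Nat.add_mul] at h4
    rw [H_eq, crossY]
    omega
  · unfold crossX at e; omega
  · simp [midZ] at e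
  · have := (middle_midZ (C := C) i).2
    omega

lemma dir_self : dir self = 0 := by
  funext a
  simp [dir, self]

lemma bitQuad_self (P : Z5) (k : ℕ) (g : Guest) :
    bitQuad L c o P k g = bitQuad L c o (P - dir g) k self := by
  simp [bitQuad, dir_self]

lemma numOf_self (P : Z5) (g : Guest) (τ : ℕ) :
    numOf C L (bitQuad L c o (P - dir g)) self τ = numOf C L (bitQuad L c o P) g τ := by
  simp only [numOf, ← bitQuad_self]

/-- The first position of every parent is a corner. -/
lemma corner (hv : ValidTiling L c) (ha : Aligned L c o) (P : Z5) :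
    Corner L c (firstPos C L o P) := by
  obtain ⟨hx, hy, hz⟩ := ha P 0 0 (zeroZ C) (H_pos L) (H_pos L)
  refine ⟨fun i j _ _ _ _ => hv _, hx, hy, fun i => ?_⟩
  rw [firstPos, hz]
  rfl

/-- The bits read in the corner of a parent are those of the parent. -/
lemma bits_corner (hL : L₀ C ≤ L) (hb : BitsOK L c o) (P : Z5) :
    cornerBits L c (firstPos C L o P) = bitQuad L c o P := by
  funext k g
  by_cases hk : k ≤ lastK C L
  · obtain ⟨hx, hy, hl, hi', hs⟩ := cross_facts hL hk
    rw [cornerBits, if_pos hk, cornerAt_first, (hb P _ _ (midZ C) hx hy).1,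
      child_h (table C) _ _ _ _ hx hy g, if_pos ⟨hl, hs g⟩, hi']
  · simp [cornerBits, bitQuad, bitAt, hk]

/-- The parents. -/
theorem parents (hK : CornerStatement C) (hL : L₀ C ≤ L) (hv : ValidTiling L c)
    (ha : Aligned L c o) (hb : BitsOK L c o) :
    ∃ c' : Z5 → St C, ValidTiling (L + 1) c' ∧
      ∀ P, quadBits (L + 1) (quadAt c' P) = bitQuad L c o P := by
  have hsig := fun P => hK L hL c _ (corner hv ha P)
  simp only [bits_corner hL hb] at hsig
  choose s hin hfin hcl hbd hnum hwd hedge htab using hsig
  set c' : Z5 → St C := fun Q => decodeSt L (bitQuad L c o Q) self (s Q self) with hc'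
  have hs : ∀ P g, s P g = s (P - dir g) self := fun P g => finBits_inj fun k hk => by
    rw [hfin P k hk g, bitQuad_self, ← hfin (P - dir g) k hk self]
  have hq : ∀ P g, quadAt c' P g = decodeSt L (bitQuad L c o P) g (s P g) := fun P g => by
    simp only [quadAt, hc', decodeSt, numOf_self, ← hs]
  refine ⟨c', fun P => ⟨⟨fun g => ⟨?_, hwd (P - dir g)⟩, fun g a hga => ?_, ?_⟩,
    fun g => htab (P - dir g)⟩, fun P => ?_⟩
  · rw [hq]
    exact hbd P g
  · have h1 := hedge (P - dir g) a
    rw [← hq (P - dir g) (axis a)] at h1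
    have e : dir (back g a) = dir g + dir (axis a) := by
      funext b
      simp only [dir, back, axis, Pi.add_apply]
      by_cases hb' : b = a
      · subst hb'
        simp [hga]
      · simp [hb']
    show EdgeNum (L + 1) a (c' (P - dir g)) (c' (P - dir (back g a)))
    rw [e, ← sub_sub]
    exact h1
  · have e : sig (L + 1) (quadAt c' P) = s P := funext fun g => by
      rw [hs P g, hcl (P - dir g)]
      rfl
    rw [e]
    exact hin P
  · funext k g
    show enc (L + 1) (c' (P - dir g)) k = _
    rw [bitQuad_self]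
    generalize P - dir g = Q
    by_cases hk : k < A C
    · rw [enc, if_pos hk, ← hfin Q k hk self]
      exact congrArg (finBits · k) (hcl Q).symm
    by_cases hk' : k ≤ lastK C L
    · have hT := T_pos C
      obtain ⟨i, hi'⟩ : ∃ i, i = (k - A C) / T C := ⟨_, rfl⟩
      obtain ⟨τ, hτ'⟩ : ∃ τ, τ = (k - A C) % T C := ⟨_, rfl⟩
      have hτ : τ < T C := hτ' ▸ Nat.mod_lt _ hT
      have e : k = A C + T C * i + τ := by
        rw [hi', hτ', Nat.add_assoc, Nat.div_add_mod]
        omega
      have hiL : i ≤ L := by
        have h2 : i < L + 1 := by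
          rw [hi', Nat.div_lt_iff_lt_mul hT, Nat.add_mul, one_mul, Nat.mul_comm L]
          unfold lastK at hk'
          omega
        omega
      rw [e, enc_num _ _ hτ, decide_eq_true (Nat.lt_succ_of_le hiL), Bool.true_and]
      exact (hnum Q i hiL τ hτ self).symm
    · rw [enc_above _ (by omega)]
      simp [bitQuad, bitAt, hk']

end Vale.Agent.P193.W4.Common.Desub
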