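import Vale.Agent.P193.W4.Common.Desub.Defs

/-!
P193, module W4.A (common layer): coordinates in the slice of a corner.
-/

noncomputable section

namespace Vale.Agent.P193.W4.Common

variable {C : Cfg} {L : ℕ}

lemma slice_lt (hL : L₀ C ≤ L) {i : ℕ} (h : i ≤ 7 * M L) : i < H L ∧ i ≤ cutX L := by
  have := cuts_lt hL
  unfold cutX at this ⊢
  omega

lemma cornerH_lt (hL : L₀ C ≤ L) : cornerH C L < H L ∧ cornerH C L ≤ halfY L := by
  have hM := nine_le_M hL
  obtain ⟨-, hk, -, -⟩ := bounds_M hL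
  obtain ⟨-, -, -, hc⟩ := cuts_lt hL
  have h1 : (lastK C L + 1) * M L ^ 2 ≤ M L / 2 * M L ^ 2 := Nat.mul_le_mul_right _ (by omega)
  have hle : cornerH C L ≤ halfY L := by
    unfold cornerH halfY
    omega
  exact ⟨by omega, hle⟩

lemma crossY_spec (hL : L₀ C ≤ L) (k : ℕ) :
    IsWire L (crossY L k) ∧ hi L (crossY L k) = k := by
  have hM := nine_le_M hL
  obtain ⟨e1, e2, e3⟩ := coord_of (L := L) (a := k) (c := 1) (e := 0) (by omega) (M_pos L)
  rw [show M L ^ 2 * k + M L * 1 + 0 = crossY L k by unfold crossY; ring] at e1 e2 e3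
  exact ⟨⟨e3, e2⟩, e1⟩

lemma one_le_crossY (L k : ℕ) : 1 ≤ crossY L k := by
  have := M_pos L
  unfold crossY
  omega

lemma crossY_le {k : ℕ} (hk : k ≤ lastK C L + 1) : crossY L k ≤ cornerH C L := by
  have := Nat.mul_le_mul_right (M L ^ 2) hk
  unfold crossY cornerH
  omega

lemma crossX_range (hL : L₀ C ≤ L) {k : ℕ} (hk : k ≤ lastK C L) :
    1 ≤ crossX L k ∧ crossX L k ≤ 7 * M L := by
  have hM := nine_le_M hL
  obtain ⟨-, hk', -, -⟩ := bounds_M hL
  unfold crossX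
  omega

lemma crossX_spec (hL : L₀ C ≤ L) {k : ℕ} (hk : k ≤ lastK C L) :
    IsBundle L (crossX L k) ∧ lo L (crossX L k) = 2 * k := by
  have hM := nine_le_M hL
  obtain ⟨-, hk', -, -⟩ := bounds_M hL
  obtain ⟨e1, e2, e3⟩ := coord_of (L := L) (a := 0) (c := 1) (e := 2 * k) (by omega) (by omega)
  rw [show M L ^ 2 * 0 + M L * 1 + 2 * k = crossX L k by unfold crossX; ring] at e1 e2 e3
  exact ⟨⟨⟨e1, e2⟩, by omega⟩, e3⟩

/-- The row after a wire row. -/
lemma after_wire (hL : L₀ C ≤ L) {k : ℕ} (hk : k ≤ lastK C L) :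
    crossY L k + 1 ≤ cornerH C L ∧ M L ≤ crossY L k ∧
      rowsBelow L (crossY L k) = k ∧ rowsBelow L (crossY L k + 1) = k + 1 ∧
      k ≤ hi L (crossY L k + 1) := by
  obtain ⟨hw, hk'⟩ := crossY_spec hL k
  obtain ⟨-, h1, -, -⟩ := rows_succ hL (crossY L k)
  obtain ⟨-, e2, e3, -, e5⟩ := h1 hw
  refine ⟨?_, e3, e2.trans hk', e5.trans (by rw [hk']), ?_⟩
  · have h2 := Nat.mul_le_mul_right (M L ^ 2) (show k + 1 ≤ lastK C L + 1 by omega)
    have : 1 ≤ M L ^ 2 := pow_pos (M_pos L) 2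
    rw [Nat.add_mul, one_mul] at h2
    unfold crossY cornerH
    omega
  · have : hi L (crossY L k) ≤ hi L (crossY L k + 1) := Nat.div_le_div_right (Nat.le_succ _)
    omega

/-- A column of a table zone. -/
lemma zone_pos (hL : L₀ C ≤ L) {m xl : ℕ} (hm : m ≤ 6) (hm1 : 1 ≤ m) (he : xl % 4 = 2)
    (h1 : 2 ^ (B C - 1) ≤ xl) (h2 : xl < 2 ^ B C) :
    IsZone C L (m * M L + xl) m ∧ lo L (m * M L + xl) = xl ∧ 1 ≤ m * M L + xl ∧
      m * M L + xl ≤ 7 * M L := by
  have hB : xl < M L := by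
    refine h2.trans_le (Nat.pow_le_pow_right (by norm_num) ?_)
    have := (le_L₀ C).trans hL
    omega
  have hM := nine_le_M hL
  obtain ⟨e1, e2, e3⟩ := coord_of (L := L) (a := 0) (c := m) (show m < M L by omega) hB
  rw [show M L ^ 2 * 0 + M L * m + xl = m * M L + xl by ring] at e1 e2 e3
  have := Nat.mul_le_mul_right (M L) hm
  have := Nat.mul_le_mul_right (M L) hm1
  exact ⟨⟨⟨e1, e2⟩, by omega, by omega, by omega⟩, e3, by omega, by omega⟩

/-- Every guest is shown in the slice. -/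
lemma shownH_mid (hL : L₀ C ≤ L) {i : ℕ} (h1 : 1 ≤ i) (hi : i ≤ 7 * M L) (g : Guest) :
    ShownH L i (midZ C) g := by
  have h := slice_lt hL hi
  refine ⟨fun e => by omega, fun e => by omega, fun a => ⟨fun e => ?_, fun e => ?_⟩⟩
  · exact absurd e (by simp [midZ])
  · have := (middle_midZ (C := C) a).2
    omega

/-- A wire row in use shows all bits in the slice. -/
lemma slice_h (hL : L₀ C ≤ L) (τ : ℕ → Bool) (b : ℕ → Bits) {i j : ℕ} (h1 : 1 ≤ i)
    (hi' : i ≤ 7 * M L) (hj : j ≤ cornerH C L) (hl : IsLive C L j) :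
    (child L τ b i j (midZ C)).fin.h = b (hi L j) := by
  funext g
  rw [child_h τ b i j (midZ C) (slice_lt hL hi').1 (hj.trans_lt (cornerH_lt hL).1),
    if_pos ⟨hl, shownH_mid hL h1 hi' g⟩]

end Vale.Agent.P193.W4.Common
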